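import Crest.Agent.N221.En.S0

/-!
# Row 221, ergodic layer: `coverEntropy` through separated sets (helper43)
-/

set_option autoImplicit false

open Set Filter Topology Dynamics ExpGrowth
open scoped ENNReal

namespace Crest.Agent.N221.En

namespace C

variable {Y : Type} [MetricSpace Y] {T : Y → Y} {n : ℕ} {ε : ℝ}

theorem cover_iff {s : Finset Y} :
    IsDynCoverOf T univ {p : Y × Y | dist p.1 p.2 < ε} n s ↔ ∀ y, ∃ x ∈ s, y ∈ bB T n ε x := by
  refine ⟨fun h y => ?_, fun h y _ => ?_⟩
  · obtain ⟨x, hx, hxy⟩ := h (mem_univ y)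
    exact ⟨x, hx, mem_dynEntourage.1 hxy⟩
  · obtain ⟨x, hx, hxy⟩ := h y
    exact ⟨x, hx, mem_dynEntourage.2 hxy⟩

theorem exp_eq (a : ℝ) (n : ℕ) :
    EReal.exp ((a : EReal) * n) = ENNReal.ofReal (Real.exp (a * n)) := by
  rw [← EReal.exp_coe, EReal.coe_mul]; rfl

end C

open C

theorem sC (hS : StmtS0) : StmtC := by
  intro Y _ _ T hT h
  obtain ⟨-, -, -, hS⟩ := hS Y T hT
  rw [coverEntropy_eq_iSup_basis Metric.uniformity_basis_dist, iSup₂_le_iff]
  constructor
  · intro H ε hε η hη
    have h1 : coverEntropyEntourage T univ {p : Y × Y | dist p.1 p.2 < ε / 2} < (h + η : ℝ) :=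
      (H _ (half_pos hε)).trans_lt (by exact_mod_cast lt_add_of_pos_right h hη)
    obtain ⟨N, hN⟩ := eventually_atTop.1 (eventually_le_exp h1)
    choose F hF _ hF' using fun n => hS n ε hε
    refine ⟨1 + ∑ m ∈ Finset.range N, (F m).card * Real.exp (-((h + η) * m)), fun n G hG => ?_⟩
    have p0 : ∀ m ∈ Finset.range N, 0 ≤ ((F m).card : ℝ) * Real.exp (-((h + η) * m)) :=
      fun m _ => by positivity
    have e0 := Real.exp_pos ((h + η) * n)
    rcases lt_or_ge n N with hn | hn
    · have a1 := Finset.single_le_sum p0 (Finset.mem_range.2 hn)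
      have a2 : (G.card : ℝ) ≤ (F n).card := by exact_mod_cast hF' n G hG
      have a3 : ((F n).card : ℝ) * Real.exp (-((h + η) * n)) * Real.exp ((h + η) * n)
          = (F n).card := by rw [mul_assoc, ← Real.exp_add]; simp
      nlinarith [mul_le_mul_of_nonneg_right a1 e0.le]
    · have a1 := hN n hn
      rw [exp_eq] at a1
      have a2 : (G.card : ℕ∞) ≤ coverMincard T univ {p : Y × Y | dist p.1 p.2 < ε / 2} n :=
        le_iInf₂ fun s hs => by exact_mod_cast S0.card_le hG (cover_iff.1 hs)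
      have a3 := (ENat.toENNReal_mono a2).trans a1
      rw [ENat.toENNReal_coe, ← ENNReal.ofReal_natCast, ENNReal.ofReal_le_ofReal_iff e0.le] at a3
      nlinarith [mul_nonneg (Finset.sum_nonneg p0) e0.le]
  · intro H ε hε
    refine EReal.le_of_forall_lt_iff_le.1 fun b hb => ?_
    have hb' : h < b := by exact_mod_cast hb
    obtain ⟨C, hC⟩ := H ε hε (b - h) (sub_pos.2 hb')
    rw [← expGrowthSup_exp (a := (b : EReal))]
    refine expGrowthSup_le_of_eventually_le (b := ENNReal.ofReal (max C 0)) ENNReal.ofReal_ne_top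
      (Eventually.of_forall fun n => ?_)
    obtain ⟨F, hF, hF', -⟩ := hS n ε hε
    refine (ENat.toENNReal_mono (cover_iff.2 hF').coverMincard_le_card).trans ?_
    rw [exp_eq, ENat.toENNReal_coe, ← ENNReal.ofReal_natCast, ← ENNReal.ofReal_mul (le_max_right _ _)]
    refine ENNReal.ofReal_le_ofReal ((hC n F hF).trans ?_)
    rw [add_sub_cancel]
    exact mul_le_mul_of_nonneg_right (le_max_left _ _) (Real.exp_pos _).le

end Crest.Agent.N221.En
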