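import Crest.Agent.N221.En.Defs

/-!
# Row 221, ergodic layer, leaf F1: transitivity from recurrence (helper64)
-/

set_option autoImplicit false

open MeasureTheory Set Filter Topology

noncomputable section

namespace Crest.Agent.N221.En

namespace F1

variable {Y : Type} [MetricSpace Y]

/-- `x ⇝ y` -/
def Rel (φ : Flow ℝ Y) (x y : Y) : Prop :=
  ∀ ε > 0, ∃ (z : Y) (t : ℝ), 0 ≤ t ∧ dist z x < ε ∧ dist (φ t z) y < ε

lemma small [CompactSpace Y] (φ : Flow ℝ Y) {ε : ℝ} (hε : 0 < ε) :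
    ∃ θ > 0, ∀ s : ℝ, |s| ≤ θ → ∀ p, dist (φ s p) p < ε := by
  have hc : Continuous fun z : ℝ × Y => dist (φ z.1 z.2) z.2 :=
    (φ.continuous continuous_fst continuous_snd).dist continuous_snd
  have h : ∀ᶠ s in 𝓝 (0 : ℝ), ∀ p ∈ (univ : Set Y), dist (φ s p) p < ε :=
    isCompact_univ.eventually_forall_of_forall_eventually fun p _ =>
      hc.continuousAt.eventually_lt continuousAt_const (by simpa using hε)
  obtain ⟨θ, hθ, h⟩ := Metric.eventually_nhds_iff.1 h
  exact ⟨θ / 2, by positivity, fun s hs p =>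
    h (by rw [Real.dist_eq, sub_zero]; linarith) p (mem_univ p)⟩

lemma Rel.refl (φ : Flow ℝ Y) (x : Y) : Rel φ x x := fun ε hε =>
  ⟨x, 0, le_rfl, by simpa using hε, by simpa using hε⟩

lemma Rel.of_approx {φ : Flow ℝ Y} {x y : Y}
    (h : ∀ ε > 0, ∃ x' y', dist x' x < ε ∧ dist y' y < ε ∧ Rel φ x' y') : Rel φ x y := by
  intro ε hε
  obtain ⟨x', y', h1, h2, h3⟩ := h (ε / 2) (by positivity)
  obtain ⟨z, t, ht, h4, h5⟩ := h3 (ε / 2) (by positivity)
  exact ⟨z, t, ht, by linarith [dist_triangle z x' x], by linarith [dist_triangle (φ t z) y' y]⟩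

lemma Rel.trans [CompactSpace Y] {φ : Flow ℝ Y} {σ : ℝ → Y → ℝ} (hL : LPS univ φ σ) {x y u : Y}
    (h1 : Rel φ x y) (h2 : Rel φ y u) : Rel φ x u := by
  intro ε hε
  obtain ⟨θ, hθ, hs⟩ := small φ (show 0 < ε / 3 by positivity)
  obtain ⟨η, hη, hw⟩ := hL (min θ (ε / 3)) (by positivity)
  obtain ⟨z₁, t₁, ht₁, a1, a2⟩ := h1 (min (ε / 3) (η / 2)) (by positivity)
  obtain ⟨z₂, t₂, ht₂, b1, b2⟩ := h2 (min (ε / 3) (η / 2)) (by positivity)
  rw [lt_min_iff] at a1 a2 b1 b2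
  obtain ⟨w, -, r, r', hr, hr', hf, hb, -⟩ := hw z₂ (mem_univ _) (φ t₁ z₁) (mem_univ _)
    (by linarith [dist_triangle_right z₂ (φ t₁ z₁) y])
  have f1 := (hf t₂ ht₂).1
  have f2 := (hb (-t₁) (by linarith)).1
  rw [add_comm, φ.map_add] at f1
  rw [← φ.map_add, show -t₁ + r' + t₁ = r' by ring] at f2
  have g1 := hs r (hr.trans (min_le_left _ _)) (φ t₂ z₂)
  have g2 := hs r' (hr'.trans (min_le_left _ _)) z₁
  have m := min_le_right θ (ε / 3)
  refine ⟨φ (-t₁) w, t₂ + t₁, by linarith, ?_, ?_⟩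
  · linarith [dist_triangle4 (φ (-t₁) w) (φ r' z₁) z₁ x]
  · rw [← φ.map_add, show t₂ + t₁ + -t₁ = t₂ by ring]
    linarith [dist_triangle4 (φ t₂ w) (φ r (φ t₂ z₂)) (φ t₂ z₂) u]

lemma iter (φ : Flow ℝ Y) (c : ℝ) (n : ℕ) (x : Y) : (φ c)^[n] x = φ (c * n) x := by
  induction n with
  | zero => simp
  | succ n ih =>
    rw [Function.iterate_succ_apply', ih, ← φ.map_add]
    congr 1
    push_cast
    ring

/-- recurrent points are dense -/
lemma dense_rec [CompactSpace Y] [MeasurableSpace Y] [BorelSpace Y] (μ : Measure Y)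
    [IsProbabilityMeasure μ] [μ.IsOpenPosMeasure] (φ : Flow ℝ Y) (c : ℝ)
    (h : MeasurePreserving (φ c) μ μ) :
    Dense {x : Y | ∀ ε > 0, ∃ᶠ n : ℕ in atTop, dist (φ (c * n) x) x < ε} := by
  refine Measure.dense_of_ae (μ := μ) ?_
  filter_upwards [h.conservative.ae_frequently_mem_of_mem_nhds] with x hx ε hε
  refine (hx _ (Metric.ball_mem_nhds x hε)).mono fun n hn => ?_
  rwa [iter] at hn

lemma near {φ : Flow ℝ Y} {x y w : Y} {r r' : ℝ}
    (hx : ∀ ε > 0, ∃ᶠ n : ℕ in atTop, dist (φ (1 * n) x) x < ε)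
    (hy : ∀ ε > 0, ∃ᶠ n : ℕ in atTop, dist (φ (-1 * n) y) y < ε)
    (hf : Tendsto (fun t => dist (φ t w) (φ (t + r) x)) atTop (𝓝 0))
    (hb : Tendsto (fun t => dist (φ t w) (φ (t + r') y)) atBot (𝓝 0)) : Rel φ y x := by
  intro ε hε
  have e2 : 0 < ε / 2 := by positivity
  have t1 : Tendsto (fun n : ℕ => 1 * (n : ℝ) - r) atTop atTop := by
    simpa [sub_eq_add_neg] using tendsto_atTop_add_const_right atTop (-r) tendsto_natCast_atTop_atTop
  have t2 : Tendsto (fun n : ℕ => -1 * (n : ℝ) - r') atTop atBot := by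
    simpa [sub_eq_add_neg] using tendsto_atBot_add_const_right atTop (-r')
      (tendsto_neg_atTop_atBot.comp (tendsto_natCast_atTop_atTop (R := ℝ)))
  obtain ⟨n, n1, n2, n3⟩ := ((hx _ e2).and_eventually
    (((hf.comp t1).eventually_lt_const e2).and (t1.eventually_ge_atTop 0))).exists
  obtain ⟨m, m1, m2, m3⟩ := ((hy _ e2).and_eventually
    (((hb.comp t2).eventually_lt_const e2).and (t2.eventually_le_atBot 0))).exists
  simp only [Function.comp, sub_add_cancel] at n2 m2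
  refine ⟨φ (-1 * m - r') w, (1 * n - r) - (-1 * m - r'), by linarith, ?_, ?_⟩
  · linarith [dist_triangle (φ (-1 * m - r') w) (φ (-1 * m) y) y]
  · rw [← φ.map_add, sub_add_cancel]
    linarith [dist_triangle (φ (1 * n - r) w) (φ (1 * n) x) x]

lemma uniform [CompactSpace Y] {φ : Flow ℝ Y} (h : ∀ x y, Rel φ x y) : USpec φ := by
  intro ε hε
  let U : ℕ → Set (Y × Y) := fun n =>
    {p | ∃ (z : Y) (t : ℝ), 0 ≤ t ∧ t ≤ n ∧ dist z p.1 < ε ∧ dist (φ t z) p.2 < ε}
  have hU : ∀ n, IsOpen (U n) := fun n => by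
    refine isOpen_iff_mem_nhds.2 fun p ⟨z, t, h0, h1, h2, h3⟩ => ?_
    have c1 : Continuous fun q : Y × Y => dist z q.1 := by fun_prop
    have c2 : Continuous fun q : Y × Y => dist (φ t z) q.2 := by fun_prop
    filter_upwards [c1.continuousAt.eventually_lt continuousAt_const h2,
      c2.continuousAt.eventually_lt continuousAt_const h3] with q q1 q2
    exact ⟨z, t, h0, h1, q1, q2⟩
  have hm : Monotone U := fun n m hnm p ⟨z, t, h0, h1, h2⟩ =>
    ⟨z, t, h0, h1.trans (by exact_mod_cast hnm), h2⟩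
  obtain ⟨n, hn⟩ := isCompact_univ.elim_directed_cover U hU (fun p _ => by
    obtain ⟨z, t, h0, h1⟩ := h p.1 p.2 ε hε
    exact mem_iUnion.2 ⟨⌈t⌉₊, z, t, h0, Nat.le_ceil t, h1⟩) hm.directed_le
  exact ⟨n, fun x y => hn (mem_univ (x, y))⟩

end F1

open F1

theorem sF1 : StmtF1 := by
  intro Y _ _ _ _ _ μ _ _ φ σ hμ hL
  have hm : ∀ c : ℝ, Measurable (φ c) := fun c => (φ.continuous continuous_const continuous_id).measurable
  have hμ' : MeasurePreserving (φ (-1)) μ μ := by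
    refine ⟨hm _, ?_⟩
    conv_lhs => rw [← hμ.map_eq]
    rw [Measure.map_map (hm _) (hm _), show φ (-1) ∘ φ 1 = id by
      funext x; simp [← φ.map_add], Measure.map_id]
  have d1 := dense_rec μ φ 1 hμ
  have d2 := dense_rec μ φ (-1) hμ'
  obtain ⟨η, hη, hw⟩ := hL 1 one_pos
  have loc : ∀ x y, dist x y < η / 2 → Rel φ y x := fun x y hxy => by
    refine Rel.of_approx fun ε hε => ?_
    have e : 0 < min ε (η / 4) := by positivity
    obtain ⟨x', a1, a2⟩ := d1.exists_dist_lt x e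
    obtain ⟨y', b1, b2⟩ := d2.exists_dist_lt y e
    rw [lt_min_iff, dist_comm] at a2 b2
    obtain ⟨w, -, r, r', -, -, -, -, hf, hb⟩ := hw x' (mem_univ _) y' (mem_univ _) (by
      have := dist_triangle4 x' x y y'
      rw [dist_comm y y'] at this
      linarith [a2.2, b2.2])
    exact ⟨y', x', b2.1, a2.1, near a1 b1 hf hb⟩
  refine uniform fun x y => ?_
  have hc : IsClopen {y | Rel φ x y} := by
    constructor
    · refine isOpen_compl_iff.1 (Metric.isOpen_iff.2 fun p hp => ⟨η / 2, by positivity, fun q hq h => ?_⟩)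
      exact hp (Rel.trans hL h (loc p q (by rwa [dist_comm])))
    · exact Metric.isOpen_iff.2 fun p hp => ⟨η / 2, by positivity, fun q hq =>
        Rel.trans hL hp (loc q p hq)⟩
  have := hc.eq_univ ⟨x, Rel.refl φ x⟩
  exact (this ▸ mem_univ y : y ∈ {y | Rel φ x y})

end Crest.Agent.N221.En
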