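import Crest.Agent.N221.En.Defs

/-! # Row 221, ergodic layer, leaf F2: gluing -/

set_option autoImplicit false

open Set Filter Topology

noncomputable section

namespace Crest.Agent.N221.En

namespace F2

variable {Y : Type} [MetricSpace Y] (φ : Flow ℝ Y)

theorem iter (n : ℕ) (y : Y) : (φ 1)^[n] y = φ n y := by
  induction n with
  | zero => simp
  | succ n ih => rw [Function.iterate_succ_apply', ih, ← φ.map_add]; congr 1; push_cast; ring

variable [CompactSpace Y]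

theorem unif {ε : ℝ} (hε : 0 < ε) : ∃ δ > 0, ∀ s t : ℝ, |s| ≤ 1 → |t| ≤ 1 → |s - t| < δ →
    ∀ p q : Y, dist p q < δ → dist (φ s p) (φ t q) < ε := by
  obtain ⟨δ, hδ, h⟩ := Metric.uniformContinuousOn_iff.1
    (((isCompact_Icc (a := (-1 : ℝ)) (b := 1)).prod isCompact_univ).uniformContinuousOn_of_continuous
      φ.cont'.continuousOn) ε hε
  exact ⟨δ, hδ, fun s t hs ht hst p q hpq => h (s, p) ⟨abs_le.1 hs, trivial⟩ (t, q)
    ⟨abs_le.1 ht, trivial⟩ (max_lt hst hpq)⟩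

theorem small {ε : ℝ} (hε : 0 < ε) : ∃ θ > 0, ∀ s t : ℝ, |s - t| ≤ θ → ∀ p : Y,
    dist (φ s p) (φ t p) < ε := by
  obtain ⟨δ, hδ, h⟩ := unif φ hε
  refine ⟨min 1 (δ / 2), by positivity, fun s t hs p => ?_⟩
  have := h (s - t) 0 (hs.trans (min_le_left _ _)) (by simp)
    (by rw [sub_zero]; linarith [min_le_right 1 (δ / 2)]) (φ t p) (φ t p) (by simpa using hδ)
  rwa [← φ.map_add, sub_add_cancel, φ.map_zero_apply] at this

/-- local product structure without time shifts -/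
theorem lps {σ : ℝ → Y → ℝ} (h : LPS univ φ σ) {ε : ℝ} (hε : 0 < ε) : ∃ η > 0, ∀ x y : Y,
    dist x y < η → ∃ w, (∀ t, 0 ≤ t → dist (φ t w) (φ t x) < ε) ∧
      ∀ t, t ≤ 0 → dist (φ t w) (φ t y) < ε := by
  obtain ⟨θ, hθ, h1⟩ := small φ (half_pos hε)
  obtain ⟨η, hη, h2⟩ := h (min θ (ε / 2)) (by positivity)
  refine ⟨η, hη, fun x y hxy => ?_⟩
  obtain ⟨w, -, r, r', hr, hr', a, b, -⟩ := h2 x trivial y trivial hxy
  have k : ∀ (t r : ℝ) (x : Y), |r| ≤ min θ (ε / 2) → dist (φ t w) (φ (t + r) x) ≤ min θ (ε / 2) →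
      dist (φ t w) (φ t x) < ε := fun t r x h3 h4 => by
    have := h1 (t + r) t (by simpa using h3.trans (min_le_left _ _)) x
    linarith [dist_triangle (φ t w) (φ (t + r) x) (φ t x), min_le_right θ (ε / 2)]
  exact ⟨w, fun t ht => k t r x hr (a t ht).1, fun t ht => k t r' y hr' (b t ht).1⟩

theorem glue {σ : ℝ → Y → ℝ} (hU : USpec φ) (h : LPS univ φ σ) : FGlue φ := fun ε hε => by
  obtain ⟨η, hη, h1⟩ := lps φ h (half_pos hε)
  obtain ⟨η1, hη1, h2⟩ := lps φ h (ε := min (ε / 2) (η / 2)) (by positivity)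
  obtain ⟨R, h3⟩ := hU (min η1 (η / 2)) (by positivity)
  refine ⟨R, fun x y => ?_⟩
  obtain ⟨z, t, t0, tR, z1, z2⟩ := h3 x y
  obtain ⟨w1, a1, a2⟩ := h2 y (φ t z) (by rw [dist_comm]; exact z2.trans_le (min_le_left _ _))
  have a3 := a2 (-t) (by linarith)
  rw [← φ.map_add, neg_add_cancel, φ.map_zero_apply] at a3
  obtain ⟨w, b1, b2⟩ := h1 (φ (-t) w1) x (by
    linarith [dist_triangle (φ (-t) w1) z x, min_le_right (ε / 2) (η / 2), min_le_right η1 (η / 2)])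
  refine ⟨w, t, t0, tR, fun s hs => by linarith [b2 s hs], fun u hu => ?_⟩
  have b3 := b1 (t + u) (by linarith)
  rw [← φ.map_add, show t + u + -t = u by ring] at b3
  linarith [dist_triangle (φ (t + u) w) (φ u w1) (φ u y), a1 u hu, min_le_left (ε / 2) (η / 2)]

theorem dglue (h : FGlue φ) : DGlue (φ 1) := fun ε hε => by
  classical
  have e5 : 0 < ε / 5 := by positivity
  obtain ⟨R, hR⟩ := h _ e5
  obtain ⟨θ, hθ, h1⟩ := small φ e5
  obtain ⟨δ, hδ, h2⟩ := unif φ e5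
  refine ⟨δ, hδ, ⌊R⌋₊ + 1, ((⌊R / θ⌋₊ + 1 : ℕ) : ℝ)⁻¹, by positivity, fun n m F G hF hG => ?_⟩
  choose w t t0 tR a b using fun p : Y × Y => hR (φ n p.1) p.2
  obtain ⟨j, -, hj⟩ := Finset.exists_le_card_fiber_of_nsmul_le_card_of_maps_to (s := F ×ˢ G)
    (t := Finset.range (⌊R / θ⌋₊ + 1)) (f := fun p => ⌊t p / θ⌋₊)
    (b := ((⌊R / θ⌋₊ + 1 : ℕ) : ℝ)⁻¹ * F.card * G.card)
    (fun p _ => Finset.mem_range.2 (Nat.lt_succ_of_le (Nat.floor_mono (by gcongr; exact tR p))))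
    (by simp) (by
      rw [Finset.card_range, Finset.card_product, nsmul_eq_mul, mul_assoc,
        mul_inv_cancel_left₀ (by positivity), Nat.cast_mul])
  set S := (F ×ˢ G).filter fun p => ⌊t p / θ⌋₊ = j
  have key : ∀ p ∈ S, ∀ q ∈ S, φ (-n) (w q) ∈ bB (φ 1) (n + m + (⌊R⌋₊ + 1)) δ (φ (-n) (w p)) →
      p = q := fun p hp q hq hb => by
    obtain ⟨p1, p2⟩ := Finset.mem_filter.1 hp
    obtain ⟨q1, q2⟩ := Finset.mem_filter.1 hq
    rw [Finset.mem_product] at p1 q1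
    have c : ∀ i < n + m + (⌊R⌋₊ + 1), ∀ s : ℝ, |s| ≤ 1 →
        dist (φ (s + i - n) (w q)) (φ (s + i - n) (w p)) < ε / 5 := fun i hi s hs => by
      have := h2 s s hs hs (by simpa using hδ) _ _ (hb i hi)
      simpa only [iter, ← φ.map_add, ← sub_eq_add_neg, add_sub_assoc] using this
    refine Prod.ext (by_contra fun e => hF _ p1.1 _ q1.1 e fun i hi => ?_)
      (by_contra fun e => hG _ p1.2 _ q1.2 e fun i hi => ?_)
    · have i0 : (i : ℝ) - n ≤ 0 := sub_nonpos.2 (Nat.cast_le.2 hi.le)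
      have c1 := c i (by omega) 0 (by simp)
      have c2 := a p _ i0
      have c3 := a q _ i0
      rw [← φ.map_add, sub_add_cancel] at c2 c3
      rw [zero_add] at c1
      rw [iter, iter]
      linarith [dist_triangle4 (φ i q.1) (φ (i - n) (w q)) (φ (i - n) (w p)) (φ i p.1),
        dist_comm (φ i q.1) (φ (i - n) (w q))]
    · have f1 := Nat.floor_le (t0 p)
      have f2 := Nat.lt_floor_add_one (t p)
      have c1 := c (n + ⌊t p⌋₊ + i) (by have := Nat.floor_mono (tR p); omega) (t p - ⌊t p⌋₊)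
        (abs_le.2 ⟨by linarith, by linarith⟩)
      rw [show t p - ⌊t p⌋₊ + (n + ⌊t p⌋₊ + i : ℕ) - n = t p + i by push_cast; ring] at c1
      have g : ∀ r, ⌊t r / θ⌋₊ = j → j * θ ≤ t r ∧ t r ≤ (j + 1) * θ := fun r hr =>
        ⟨(le_div_iff₀ hθ).1 (hr ▸ Nat.floor_le (div_nonneg (t0 r) hθ.le)),
          (div_le_iff₀ hθ).1 (hr ▸ (Nat.lt_floor_add_one _).le)⟩
      have c2 := h1 (t q + i) (t p + i) (abs_le.2 ⟨by linarith [g p p2, g q q2],
        by linarith [g p p2, g q q2]⟩) (w q)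
      rw [iter, iter]
      linarith [dist_triangle4 (φ i q.2) (φ (t q + i) (w q)) (φ (t p + i) (w q)) (φ i p.2),
        dist_triangle (φ (t p + i) (w q)) (φ (t p + i) (w p)) (φ i p.2), b p i i.cast_nonneg,
        b q i i.cast_nonneg, dist_comm (φ i q.2) (φ (t q + i) (w q))]
  refine ⟨S.image fun p => φ (-n) (w p), fun x hx y hy e hb => ?_, hj.trans_eq ?_⟩
  · obtain ⟨p, hp, rfl⟩ := Finset.mem_image.1 hx
    obtain ⟨q, hq, rfl⟩ := Finset.mem_image.1 hy
    exact e (by rw [key p hp q hq hb])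
  · rw [Finset.card_image_of_injOn fun p hp q hq e => key p hp q hq fun i _ => ?_]
    rw [show φ (-n) (w q) = φ (-n) (w p) from e.symm, dist_self]; exact hδ

end F2

theorem sF2 : StmtF2 := fun _ _ _ φ => ⟨fun _ hU h => F2.glue φ hU h, F2.dglue φ⟩

end Crest.Agent.N221.En
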