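import Crest.Agent.N221.En.Defs

/-!
# Row 221, ergodic layer: dense bi-transitive points (helper25)
-/

set_option autoImplicit false

open Set Filter Topology

namespace Crest.Agent.N221.En

namespace F3

variable {Y : Type} [MetricSpace Y] {φ : Flow ℝ Y}

theorem cont (t : ℝ) : Continuous (φ t) := φ.continuous continuous_const continuous_id

theorem opn (P : ℝ → Prop) (y : Y) (e : ℝ) : IsOpen {z | ∃ t, P t ∧ dist (φ t z) y < e} := by
  have : {z | ∃ t, P t ∧ dist (φ t z) y < e} = ⋃ t, ⋃ (_ : P t), {z | dist (φ t z) y < e} := by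
    ext z; simp
  rw [this]
  exact isOpen_iUnion fun t => isOpen_iUnion fun _ =>
    isOpen_lt ((cont t).dist continuous_const) continuous_const

theorem dns1 (h : USpec φ) (y : Y) {e : ℝ} (he : 0 < e) (R : ℝ) :
    Dense {z | ∃ t, R ≤ t ∧ dist (φ t z) y < e} := by
  refine Metric.dense_iff.2 fun x ε hε => ?_
  obtain ⟨δ, hδ, h1⟩ :=
    Metric.continuousAt_iff.1 ((cont (φ := φ) (-R)).continuousAt (x := φ R x)) ε hε
  obtain ⟨R', h2⟩ := h (min δ e) (lt_min hδ he)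
  obtain ⟨z, t, ht, -, h3, h4⟩ := h2 (φ R x) y
  refine ⟨φ (-R) z, ?_, t + R, by linarith, ?_⟩
  · have := h1 (h3.trans_le (min_le_left _ _))
    rwa [← φ.map_add, neg_add_cancel, φ.map_zero_apply] at this
  · rw [← φ.map_add, add_neg_cancel_right]
    exact h4.trans_le (min_le_right _ _)

theorem dns2 (h : USpec φ) (y : Y) {e : ℝ} (he : 0 < e) (R : ℝ) :
    Dense {z | ∃ t, t ≤ -R ∧ dist (φ t z) y < e} := by
  refine Metric.dense_iff.2 fun x ε hε => ?_
  obtain ⟨δ, hδ, h1⟩ :=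
    Metric.continuousAt_iff.1 ((cont (φ := φ) R).continuousAt (x := φ (-R) x)) ε hε
  obtain ⟨R', h2⟩ := h (min δ e) (lt_min hδ he)
  obtain ⟨z, t, ht, -, h3, h4⟩ := h2 y (φ (-R) x)
  refine ⟨φ R (φ t z), ?_, -(R + t), by linarith, ?_⟩
  · have := h1 (h4.trans_le (min_le_left _ _))
    rwa [← φ.map_add R (-R), add_neg_cancel, φ.map_zero_apply] at this
  · rw [← φ.map_add R t, ← φ.map_add, neg_add_cancel, φ.map_zero_apply]
    exact h3.trans_le (min_le_right _ _)

end F3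

open F3 in
theorem sF3 : StmtF3 := by
  intro Y _ _ φ h
  have hd : Dense {z | BiTrans univ φ z} := by
    obtain ⟨s, hs, hsd⟩ := TopologicalSpace.exists_countable_dense Y
    have := hs.to_subtype
    have hp : ∀ j : ℕ, (0 : ℝ) < 1 / (j + 1) := fun j => Nat.one_div_pos_of_nat
    have h1 := dense_iInter_of_isOpen (X := Y) (ι := s × ℕ × ℕ)
      (f := fun q => {z | ∃ t, (q.2.2 : ℝ) ≤ t ∧ dist (φ t z) q.1 < 1 / (q.2.1 + 1)} ∩
        {z | ∃ t, t ≤ -(q.2.2 : ℝ) ∧ dist (φ t z) q.1 < 1 / (q.2.1 + 1)})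
      (fun q => (opn _ _ _).inter (opn _ _ _))
      (fun q => (dns1 h _ (hp _) _).inter_of_isOpen_left (dns2 h _ (hp _) _) (opn _ _ _))
    refine h1.mono fun z hz y _ ε hε R => ?_
    obtain ⟨j, hj⟩ := exists_nat_one_div_lt (half_pos hε)
    obtain ⟨y', hy', hys⟩ := Metric.dense_iff.1 hsd y _ (half_pos hε)
    obtain ⟨n, hn⟩ := exists_nat_ge R
    obtain ⟨⟨t, h2, h3⟩, t', h4, h5⟩ := mem_iInter.1 hz (⟨y', hys⟩, j, n)
    rw [Metric.mem_ball] at hy'
    refine ⟨⟨t, hn.trans h2, ?_⟩, t', h4.trans (neg_le_neg hn), ?_⟩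
    · linarith [dist_triangle (φ t z) y' y]
    · linarith [dist_triangle (φ t' z) y' y]
  refine ⟨hd, fun g hg hi x y => ?_⟩
  obtain ⟨z, hz⟩ := @Dense.nonempty _ _ _ ⟨x⟩ hd
  have key : ∀ p, g p = g z := by
    intro p
    have hc : IsClosed {p | g p = g z} := isClosed_eq hg continuous_const
    refine hc.closure_subset (Metric.mem_closure_iff.2 fun ε hε => ?_)
    obtain ⟨⟨t, -, ht⟩, -⟩ := hz p trivial ε hε 0
    exact ⟨φ t z, hi t z, by rwa [dist_comm]⟩
  rw [key x, key y]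

end Crest.Agent.N221.En
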