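import Crest.Agent.N221.En.Defs

/-!
# Row 221, ergodic layer: a bounded cocycle is a continuous coboundary (helper25)
-/

set_option autoImplicit false

open Set Filter Topology

namespace Crest.Agent.N221.En

namespace F4

variable {Y : Type} [MetricSpace Y] {φ : Flow ℝ Y} {g : ℝ → Y → ℝ} {C : ℝ}

/-- transitive along the filter `l` -/
def Tr (φ : Flow ℝ Y) (l : Filter ℝ) (z : Y) : Prop :=
  ∀ y, ∀ ε > 0, ∃ᶠ t in l, dist (φ t z) y < ε

theorem bi_iff {z : Y} : BiTrans univ φ z ↔ Tr φ atTop z ∧ Tr φ atBot z := by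
  constructor
  · intro h
    refine ⟨fun y ε hε => frequently_atTop.2 fun R => (h y trivial ε hε R).1,
      fun y ε hε => frequently_atBot.2 fun R => ?_⟩
    simpa using (h y trivial ε hε (-R)).2
  · rintro ⟨h1, h2⟩ y - ε hε R
    exact ⟨frequently_atTop.1 (h1 y ε hε) R, frequently_atBot.1 (h2 y ε hε) (-R)⟩

theorem Tr.shift {l : Filter ℝ} (hl : ∀ r, Tendsto (fun t => t + r) l l) {z : Y} (h : Tr φ l z)
    (r : ℝ) : Tr φ l (φ r z) := by
  intro y ε hε
  refine (hl (-r)).frequently ((h y ε hε).mono fun t ht => ?_)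
  rwa [← φ.map_add, neg_add_cancel_right]

theorem Tr.asym {l : Filter ℝ} {z w : Y} (h : Tr φ l z)
    (hw : Tendsto (fun t => dist (φ t w) (φ t z)) l (𝓝 0)) : Tr φ l w := by
  intro y ε hε
  refine ((h y _ (half_pos hε)).and_eventually (hw.eventually (gt_mem_nhds (half_pos hε)))).mono
    fun t ht => ?_
  linarith [dist_triangle (φ t w) (φ t z) y, ht.1, ht.2]

theorem near_sup {l : Filter ℝ} (hl : ∀ r, Tendsto (fun t => t + r) l l) {P : ℝ → Prop}
    (hP : ∀ᶠ t in l, P t) (hc : ∀ t, Continuous (g t))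
    (ha : ∀ s t z, g (s + t) z = g t z + g s (φ t z)) (hb : ∀ t z, |g t z| ≤ C) {z : Y}
    (h : Tr φ l z) {η : ℝ} (hη : 0 < η) : ∃ t, P t ∧ ∀ s, g s z ≤ g t z + η := by
  set F : ℝ × ℝ × Y → ℝ := fun q => g q.1 q.2.2 - g q.2.1 q.2.2 with hF
  have hB : BddAbove (range F) := ⟨2 * C, by
    rintro _ ⟨q, rfl⟩
    have h1 := abs_le.1 (hb q.1 q.2.2)
    have h2 := abs_le.1 (hb q.2.1 q.2.2)
    simp only [hF]
    linarith [h1.2, h2.1]⟩
  have : Nonempty (ℝ × ℝ × Y) := ⟨(0, 0, z)⟩
  obtain ⟨⟨t1, t2, p⟩, hq⟩ := exists_lt_of_lt_ciSup (show iSup F - η < iSup F by linarith)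
  have ho : IsOpen {p | iSup F - η < g t1 p - g t2 p} :=
    isOpen_lt continuous_const ((hc t1).sub (hc t2))
  obtain ⟨ε, hε, h1⟩ := Metric.isOpen_iff.1 ho p hq
  obtain ⟨t, h2, h3⟩ := ((h p ε hε).and_eventually ((hl t1).eventually hP)).exists
  refine ⟨t + t1, h3, fun s => ?_⟩
  have h4 : iSup F - η < g t1 (φ t z) - g t2 (φ t z) := h1 h2
  have h5 : g s z - g (t2 + t) z ≤ iSup F := le_ciSup hB (s, t2 + t, z)
  rw [add_comm t t1, ha t1 t z]
  rw [ha t2 t z] at h5
  linarith

end F4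

open F4 in
theorem sF4 : StmtF4 := by
  intro Y _ _ φ σ hσ hadd hL hD h C hb
  set g : ℝ → Y → ℝ := fun t z => σ t z - h * t with hg
  have hgc : Continuous fun p : ℝ × Y => g p.1 p.2 := hσ.sub (by fun_prop)
  have hc : ∀ t, Continuous (g t) := fun t => hgc.comp (Continuous.prodMk_right t)
  have ha : ∀ s t z, g (s + t) z = g t z + g s (φ t z) := by
    intro s t z
    simp only [hg, hadd]
    ring
  have hb' : ∀ t z, |g t z| ≤ C := hb
  have hB : ∀ z, BddAbove (range fun t => g t z) := fun z =>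
    ⟨C, by rintro _ ⟨t, rfl⟩; exact (abs_le.1 (hb' t z)).2⟩
  set u : Y → ℝ := fun z => ⨆ t, g t z with hu
  have hle : ∀ t z, g t z ≤ u z := fun t z => le_ciSup (hB z) t
  have hsh : ∀ s z, g s z = u z - u (φ s z) := by
    intro s z
    have h1 : u (φ s z) ≤ u z - g s z := ciSup_le fun t => by linarith [hle (t + s) z, ha t s z]
    have h2 : u z ≤ u (φ s z) + g s z := ciSup_le fun t => by
      have := ha (t - s) s z
      rw [sub_add_cancel] at this
      linarith [hle (t - s) (φ s z)]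
    linarith
  have hT : ∀ r : ℝ, Tendsto (fun t => t + r) atTop atTop := fun r =>
    tendsto_atTop_add_const_right _ r tendsto_id
  have hT' : ∀ r : ℝ, Tendsto (fun t => t + r) atBot atBot := fun r =>
    tendsto_atBot_add_const_right _ r tendsto_id
  have h0 : ∀ z, g 0 z = 0 := fun z => by
    have := ha 0 0 z
    rw [add_zero, φ.map_zero_apply] at this
    linarith
  have key : ∀ ε > 0, ∃ η > 0, ∀ x y, BiTrans univ φ x → BiTrans univ φ y → dist x y < η →
      u x - u y < ε := by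
    intro ε hε
    have h1 : ∀ᶠ r in 𝓝 (0 : ℝ), ∀ p ∈ (univ : Set Y), |g r p| < ε / 8 := by
      refine isCompact_univ.eventually_forall_of_forall_eventually fun p _ => ?_
      refine (isOpen_lt hgc.abs continuous_const).mem_nhds ?_
      change |g 0 p| < ε / 8
      rw [h0, abs_zero]
      positivity
    obtain ⟨δ, hδ, h2⟩ := Metric.eventually_nhds_iff.1 h1
    obtain ⟨η, hη, h3⟩ := hL (min (δ / 2) (ε / 8)) (by positivity)
    refine ⟨η, hη, fun x y hx hy hxy => ?_⟩
    obtain ⟨w, -, r, r', hr, hr', h4, h5, -, h6⟩ := h3 x trivial y trivial hxy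
    have hs : ∀ r p, |r| ≤ min (δ / 2) (ε / 8) → |g r p| < ε / 8 := fun r p hr =>
      h2 (by rw [Real.dist_eq, sub_zero]; linarith [min_le_left (δ / 2) (ε / 8)]) p trivial
    have hm := min_le_right (δ / 2) (ε / 8)
    obtain ⟨t, ht, h7⟩ := near_sup hT (eventually_ge_atTop 0) hc ha hb'
      ((bi_iff.1 hx).1.shift hT r) (show 0 < ε / 8 by positivity)
    have hw : Tr φ atBot w := ((bi_iff.1 hy).2.shift hT' r').asym (by
      simpa only [φ.map_add] using h6)
    obtain ⟨t', ht', h8⟩ := near_sup hT' (eventually_le_atBot 0) hc ha hb' hw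
      (show 0 < ε / 8 by positivity)
    have h9 : u (φ r x) ≤ g t (φ r x) + ε / 8 := ciSup_le h7
    have h10 : u w ≤ g t' w + ε / 8 := ciSup_le h8
    have h11 := abs_le.1 (h4 t ht).2
    have h12 := abs_le.1 (h5 t' ht').2
    have h13 := abs_lt.1 (hs r x hr)
    have h14 := abs_lt.1 (hs r' y hr')
    have h15 := hle t w
    have h16 := hle t' (φ r' y)
    have h17 := hsh r x
    have h18 := hsh r' y
    simp only [hg] at h9 h10 h15 h16
    linarith [h11.1, h12.2, h13.2, h14.1]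
  have hU : UniformContinuous fun p : {z | BiTrans univ φ z} => u p := by
    refine Metric.uniformContinuous_iff.2 fun ε hε => ?_
    obtain ⟨η, hη, h1⟩ := key ε hε
    refine ⟨η, hη, fun {x y} hxy => ?_⟩
    rw [Real.dist_eq, abs_sub_lt_iff]
    exact ⟨h1 _ _ x.2 y.2 hxy, h1 _ _ y.2 x.2 (by rwa [dist_comm])⟩
  have hac := (hD.uniformContinuous_extend hU).continuous
  refine ⟨_, hac.continuousOn, fun z _ t => ?_⟩
  have hφ : Continuous (φ t) := φ.continuous continuous_const continuous_id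
  refine congrFun (Continuous.ext_on hD (hc t) (hac.sub (hac.comp hφ)) fun p hp => ?_) z
  have hp' : BiTrans univ φ (φ t p) :=
    bi_iff.2 ⟨(bi_iff.1 hp).1.shift hT t, (bi_iff.1 hp).2.shift hT' t⟩
  have e1 := hD.extend_of_ind hU ⟨p, hp⟩
  have e2 := hD.extend_of_ind hU ⟨φ t p, hp'⟩
  simp only [Pi.sub_apply, Function.comp_apply]
  rw [e1, e2]
  exact hsh t p

end Crest.Agent.N221.En
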