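import Crest.Agent.N221.En.Defs

/-!
# Row 221, abstract ergodic layer: leaf F5 (continuous time to discrete time)
-/

set_option autoImplicit false

open MeasureTheory Set Filter Topology

noncomputable section

namespace Crest.Agent.N221.En

namespace F5

variable {Y : Type} [MetricSpace Y] (φ : Flow ℝ Y)

theorem iter (n : ℕ) (z : Y) : (φ 1)^[n] z = φ n z := by
  induction n with
  | zero => simp
  | succ n ih => rw [Function.iterate_succ_apply', ih, ← φ.map_add, add_comm]; push_cast; rfl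

theorem unif [CompactSpace Y] {ε : ℝ} (hε : 0 < ε) : ∃ ε' > 0, ∀ p q : Y, dist p q < ε' →
    ∀ s ∈ Icc (0 : ℝ) 1, dist (φ s p) (φ s q) < ε := by
  have h := (isCompact_Icc.prod isCompact_univ :
    IsCompact (Icc (0 : ℝ) 1 ×ˢ (univ : Set Y))).uniformContinuousOn_of_continuous
    (φ.continuous continuous_fst continuous_snd).continuousOn
  obtain ⟨δ, hδ, h1⟩ := Metric.uniformContinuousOn_iff.1 h ε hε
  exact ⟨δ, hδ, fun p q hpq s hs => h1 (s, p) ⟨hs, trivial⟩ (s, q) ⟨hs, trivial⟩ (by simpa)⟩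

theorem split (n : ℕ) {s : ℝ} (h0 : 0 ≤ s) (h1 : s ≤ n + 1) :
    ∃ i : ℕ, i ≤ n ∧ s - i ∈ Icc (0 : ℝ) 1 := by
  induction n with
  | zero => exact ⟨0, le_rfl, by simpa using h0, by simpa using h1⟩
  | succ n ih =>
    rcases le_total s (n + 1) with h | h
    · obtain ⟨i, hi, h2⟩ := ih h
      exact ⟨i, by omega, h2⟩
    · exact ⟨n + 1, le_rfl, by push_cast; linarith, by linarith⟩

variable {τ : Y → ℝ}

theorem cont (hτ : Continuous τ) : Continuous fun p : ℝ × Y => fS φ τ p.1 p.2 :=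
  (intervalIntegral.continuous_parametric_primitive_of_continuous (μ := volume) (a₀ := 0)
    (f := fun (z : Y) (s : ℝ) => τ (φ s z))
    (hτ.comp (φ.continuous continuous_snd continuous_fst))).comp continuous_swap

theorem coc (hτ : Continuous τ) (s t : ℝ) (z : Y) :
    fS φ τ (s + t) z = fS φ τ t z + fS φ τ s (φ t z) := by
  have hc : Continuous fun u => τ (φ u z) := hτ.comp (φ.continuous continuous_id continuous_const)
  have e := intervalIntegral.integral_comp_add_right (a := 0) (b := s) (fun u => τ (φ u z)) t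
  simp only [fS, ← φ.map_add]
  rw [e, zero_add, intervalIntegral.integral_add_adjacent_intervals (hc.intervalIntegrable _ _)
    (hc.intervalIntegrable _ _)]

theorem birk (hτ : Continuous τ) (n : ℕ) (z : Y) :
    birkhoffSum (φ 1) (fS φ τ 1) n z = fS φ τ n z := by
  induction n with
  | zero => simp [fS]
  | succ n ih => rw [birkhoffSum_succ, ih, iter, ← coc φ hτ, add_comm]; push_cast; rfl

end F5

open F5 in
theorem sF5 : StmtF5 := by
  intro Y _ _ _ _ μ _ φ τ hτ
  refine ⟨cont φ hτ, coc φ hτ, birk φ hτ, ?_, fun h => ⟨fun ε hε => ?_, ?_⟩, fun h C hC => ?_⟩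
  · rintro ⟨ε, hε, C, hC, h⟩
    obtain ⟨ε', hε', h1⟩ := unif φ hε
    refine ⟨ε', hε', max C 1, by positivity, fun z n => ?_⟩
    obtain _ | n := n
    · simp
    rw [birk φ hτ]
    refine le_trans (measureReal_mono (s₂ := fB univ φ (n + 1 : ℕ) ε z)
      fun y hy => ⟨trivial, fun s hs => ?_⟩) ((h z trivial _ (Nat.cast_nonneg (n + 1))).trans
        (mul_le_mul_of_nonneg_right (le_max_left _ _) (Real.exp_pos _).le))
    obtain ⟨i, hi, h2⟩ := split n hs.1 (by simpa using hs.2)
    have h3 := hy i (by omega)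
    rw [iter, iter] at h3
    simpa only [← φ.map_add, sub_add_cancel] using h1 _ _ h3 _ h2
  · obtain ⟨c, hc, h1⟩ := h ε hε
    refine ⟨c, hc, fun z n => ?_⟩
    rw [birk φ hτ]
    refine (h1 z trivial n (Nat.cast_nonneg n)).trans (measureReal_mono fun y hy i hi => ?_)
    rw [iter, iter]
    exact hy.2 i ⟨Nat.cast_nonneg i, Nat.cast_le.2 hi.le⟩
  · refine ⟨fun U hU ⟨z, hz⟩ h0 => ?_⟩
    obtain ⟨ε, hε, hb⟩ := Metric.isOpen_iff.1 hU z hz
    obtain ⟨c, hc, h1⟩ := h ε hε
    have h2 : μ (fB univ φ 0 ε z) = 0 :=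
      measure_mono_null (fun y hy => hb (by simpa using hy.2 0 ⟨le_rfl, le_rfl⟩)) h0
    have h3 := h1 z trivial 0 le_rfl
    rw [measureReal_def, h2, ENNReal.toReal_zero] at h3
    exact absurd h3 (not_le.2 (by positivity))
  · obtain ⟨M, hM⟩ := (isCompact_Icc.prod isCompact_univ :
      IsCompact (Icc (0 : ℝ) 1 ×ˢ (univ : Set Y))).exists_bound_of_continuousOn
      (f := fun p : ℝ × Y => fS φ τ p.1 p.2 - h * p.1)
      ((cont φ hτ).sub (continuous_const.mul continuous_fst)).continuousOn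
    have h1 : ∀ t z, 0 ≤ t → |fS φ τ t z - h * t| ≤ C + M := fun t z ht => by
      have a1 := hM (t - ⌊t⌋₊, φ ⌊t⌋₊ z)
        ⟨⟨sub_nonneg.2 (Nat.floor_le ht), by linarith [Nat.lt_floor_add_one t]⟩, trivial⟩
      have a2 := coc φ hτ (t - ⌊t⌋₊) ⌊t⌋₊ z
      rw [sub_add_cancel] at a2
      have a3 := abs_le.1 (hC z ⌊t⌋₊)
      have a4 := abs_le.1 a1
      simp only at a4
      rw [a2, abs_le]
      constructor <;> linarith
    refine ⟨C + M, fun t z => ?_⟩
    rcases le_total 0 t with ht | ht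
    · exact h1 t z ht
    · have a1 := coc φ hτ (-t) t z
      have a2 := abs_le.1 (h1 (-t) (φ t z) (by linarith))
      have a3 : fS φ τ (-t + t) z = 0 := by simp [fS]
      rw [abs_le]
      constructor <;> linarith

end Crest.Agent.N221.En
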