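import Crest.Agent.N221.En.Defs

/-!
# Row 221, abstract ergodic layer: the leaf G1 (helper3)

Gluing turns the subexponential error in the growth of separated sets into a constant.
-/

set_option autoImplicit false

open MeasureTheory Set Filter Topology

noncomputable section

namespace Crest.Agent.N221.En

namespace G1

variable {Y : Type} [MetricSpace Y] {T : Y → Y}

theorem bB_mono {n : ℕ} {ε ε' : ℝ} (h : ε ≤ ε') (z : Y) : bB T n ε z ⊆ bB T n ε' z :=
  fun _ hy i hi => (hy i hi).trans_le h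

theorem bB_symm {n : ℕ} {ε : ℝ} {x y : Y} (h : y ∈ bB T n ε x) : x ∈ bB T n ε y :=
  fun i hi => dist_comm (T^[i] y) _ ▸ h i hi

theorem bB_tri {n : ℕ} {ε ε' : ℝ} {x y z : Y} (h : y ∈ bB T n ε x) (h' : z ∈ bB T n ε' y) :
    z ∈ bB T n (ε + ε') x := fun i hi => by
  have := dist_triangle (T^[i] z) (T^[i] y) (T^[i] x)
  have := h i hi
  have := h' i hi
  linarith

variable [MeasurableSpace Y] [BorelSpace Y] {μ : Measure Y} [IsProbabilityMeasure μ] {f : Y → ℝ}

/-- separated points of one ball are boundedly many -/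
theorem local_bound (ho : ∀ n ε z, IsOpen (bB T n ε z)) {ε₀ C₀ ε c : ℝ} (hC : 0 < C₀) (hc : 0 < c)
    (hε : ε ≤ ε₀ / 4)
    (hU : ∀ (z : Y) (n : ℕ), μ.real (bB T n ε₀ z) ≤ C₀ * Real.exp (-birkhoffSum T f n z))
    (hL : ∀ (z : Y) (n : ℕ), c * Real.exp (-birkhoffSum T f n z) ≤ μ.real (bB T n (ε / 2) z))
    (hε₀ : 0 < ε₀) {n : ℕ} {H : Finset Y} (hH : Sep T n ε H) {x : Y}
    (hx : ∀ y ∈ H, y ∈ bB T n (ε₀ / 4) x) : (H.card : ℝ) ≤ C₀ / c := by
  rcases H.eq_empty_or_nonempty with rfl | hne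
  · simpa using (div_pos hC hc).le
  obtain ⟨y₁, h1, hmax⟩ := H.exists_max_image (birkhoffSum T f n) hne
  have hd : (H : Set Y).PairwiseDisjoint fun y => bB T n (ε / 2) y := fun y hy y' hy' hne =>
    Set.disjoint_left.2 fun w hw hw' => hH y hy y' hy' hne (by
      have := bB_tri hw (bB_symm hw')
      rwa [add_halves] at this)
  have hsub : (⋃ y ∈ H, bB T n (ε / 2) y) ⊆ bB T n ε₀ y₁ := by
    intro w hw
    simp only [mem_iUnion] at hw
    obtain ⟨y, hy, hw⟩ := hw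
    exact bB_mono (by linarith) _ (bB_tri (bB_tri (bB_symm (hx y₁ h1)) (hx y hy)) hw)
  have key : (H.card : ℝ) * (c * Real.exp (-birkhoffSum T f n y₁)) ≤
      C₀ * Real.exp (-birkhoffSum T f n y₁) := by
    calc (H.card : ℝ) * (c * Real.exp (-birkhoffSum T f n y₁))
        = ∑ _y ∈ H, c * Real.exp (-birkhoffSum T f n y₁) := by simp
      _ ≤ ∑ y ∈ H, μ.real (bB T n (ε / 2) y) := Finset.sum_le_sum fun y hy => by
          refine le_trans ?_ (hL y n)
          gcongr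
          exact hmax y hy
      _ = μ.real (⋃ y ∈ H, bB T n (ε / 2) y) :=
          (measureReal_biUnion_finset hd (fun y _ => (ho _ _ _).measurableSet)).symm
      _ ≤ μ.real (bB T n ε₀ y₁) := measureReal_mono hsub
      _ ≤ _ := hU _ _
  rw [le_div_iff₀ hc]
  rw [← mul_assoc] at key
  exact le_of_mul_le_mul_right key (Real.exp_pos _)

/-- comparison of scales -/
theorem scale (ho : ∀ n ε z, IsOpen (bB T n ε z)) {ε₀ C₀ : ℝ} (hε₀ : 0 < ε₀) (hC : 0 < C₀)
    (hU : ∀ (z : Y) (n : ℕ), μ.real (bB T n ε₀ z) ≤ C₀ * Real.exp (-birkhoffSum T f n z))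
    (hL : DLow μ T f) {ε : ℝ} (hε : 0 < ε) : ∃ M > 0, ∀ (n : ℕ) (F H : Finset Y),
      (∀ y, ∃ x ∈ F, y ∈ bB T n (ε₀ / 4) x) → Sep T n ε H → (H.card : ℝ) ≤ M * F.card := by
  classical
  obtain ⟨c, hc, hL⟩ := hL (min ε (ε₀ / 4) / 2) (by positivity)
  refine ⟨C₀ / c, by positivity, fun n F H hF hH => ?_⟩
  have h1 : H ⊆ F.biUnion fun x => H.filter (· ∈ bB T n (ε₀ / 4) x) := fun y hy => by
    obtain ⟨x, hx, h⟩ := hF y
    exact Finset.mem_biUnion.2 ⟨x, hx, Finset.mem_filter.2 ⟨hy, h⟩⟩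
  calc (H.card : ℝ) ≤ ∑ x ∈ F, ((H.filter (· ∈ bB T n (ε₀ / 4) x)).card : ℝ) := by
        exact_mod_cast (Finset.card_le_card h1).trans Finset.card_biUnion_le
    _ ≤ ∑ _x ∈ F, C₀ / c := Finset.sum_le_sum fun x _ =>
        local_bound ho hC hc (min_le_right _ _) hU hL hε₀
          (fun y hy y' hy' hne h => hH y (Finset.mem_filter.1 hy).1 y' (Finset.mem_filter.1 hy').1
            hne (bB_mono (min_le_left _ _) _ h)) fun y hy => (Finset.mem_filter.1 hy).2
    _ = _ := by simp [mul_comm]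

/-- supermultiplicativity removes the subexponential error -/
theorem seq_bound {a : ℕ → ℝ} {c h : ℝ} {k : ℕ} (hc : 0 < c) (h0 : ∀ n, 0 ≤ a n)
    (hm : ∀ n m, c * a n * a m ≤ a (n + m + k))
    (hs : ∀ η > 0, ∃ C : ℝ, ∀ n : ℕ, a n ≤ C * Real.exp ((h + η) * n)) (n : ℕ) :
    c * a n ≤ Real.exp (h * (n + k)) := by
  have it : ∀ j : ℕ, c ^ j * a n ^ (j + 1) ≤ a ((j + 1) * n + j * k) := fun j => by
    induction j with
    | zero => simp
    | succ j ih =>
      rw [show (j + 1 + 1) * n + (j + 1) * k = (j + 1) * n + j * k + n + k by ring]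
      refine le_trans ?_ (hm _ _)
      calc c ^ (j + 1) * a n ^ (j + 1 + 1) = c * (c ^ j * a n ^ (j + 1)) * a n := by ring
        _ ≤ _ := by gcongr; exact h0 n
  have h1 : ∀ η > 0, c * a n ≤ Real.exp ((h + η) * (n + k)) := fun η hη => by
    obtain ⟨C, hC⟩ := hs η hη
    by_contra hlt
    have hE := Real.exp_pos ((h + η) * (n + k))
    have hr : 1 < c * a n / Real.exp ((h + η) * (n + k)) := (one_lt_div hE).2 (not_le.1 hlt)
    obtain ⟨j, hj⟩ := pow_unbounded_of_one_lt (c * C * Real.exp (-((h + η) * k))) hr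
    refine absurd (hj.trans_le (pow_le_pow_right₀ hr.le (Nat.le_succ j))) (not_lt.2 ?_)
    rw [div_pow, div_le_iff₀ (pow_pos hE _), ← Real.exp_nat_mul, mul_assoc (c * C), ← Real.exp_add]
    calc (c * a n) ^ (j + 1) = c * (c ^ j * a n ^ (j + 1)) := by ring
      _ ≤ c * (C * Real.exp ((h + η) * ((j + 1) * n + j * k : ℕ))) :=
          mul_le_mul_of_nonneg_left ((it j).trans (hC _)) hc.le
      _ = _ := by
          rw [mul_assoc c C]
          congr 3
          push_cast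
          ring
  have h2 : Tendsto (fun η : ℝ => Real.exp ((h + η) * (n + k))) (𝓝[>] 0)
      (𝓝 (Real.exp ((h + 0) * (n + k)))) :=
    (Continuous.tendsto (by fun_prop) 0).mono_left nhdsWithin_le_nhds
  rw [add_zero] at h2
  exact ge_of_tendsto h2 (eventually_nhdsWithin_of_forall h1)

end G1

open G1 in
theorem sG1 (hS : StmtS0) : StmtG1 := by
  intro Y _ _ _ _ μ _ T f hT _ ⟨ε₀, hε₀, C₀, hC, hU⟩ hL hG h hs
  obtain ⟨ho, -, -, hF⟩ := hS Y T hT
  choose F h1 h2 h3 using fun n => hF n (ε₀ / 4) (by positivity)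
  obtain ⟨ε', hε', k, c, hc, hG⟩ := hG (ε₀ / 4) (by positivity)
  obtain ⟨M, hM, hM'⟩ := scale ho hε₀ hC hU hL hε'
  have key := seq_bound (a := fun n => ((F n).card : ℝ)) (c := c / M) (h := h) (k := k)
    (by positivity) (fun n => by positivity) (fun n m => by
      obtain ⟨H, a1, a2⟩ := hG n m _ _ (h1 n) (h1 m)
      rw [div_mul_eq_mul_div, div_mul_eq_mul_div, div_le_iff₀' hM]
      exact a2.trans (hM' _ _ _ (h2 _) a1)) fun η hη =>
      (hs _ (by positivity) η hη).imp fun C hC n => hC n _ (h1 n)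
  intro ε hε
  obtain ⟨N, hN, hN'⟩ := scale ho hε₀ hC hU hL hε
  refine ⟨N * (Real.exp (h * k) / (c / M)), fun n G hG => (hN' n _ _ (h2 n) hG).trans ?_⟩
  rw [mul_assoc]
  gcongr
  rw [div_mul_eq_mul_div, le_div_iff₀' (by positivity), ← Real.exp_add]
  refine (key n).trans_eq ?_
  congr 1
  ring

end Crest.Agent.N221.En
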