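import Crest.Agent.N221.En.Defs

/-! # Row 221, abstract ergodic layer: leaf G2 (rigidity step) (helper33) -/

set_option autoImplicit false

open MeasureTheory Set Filter Topology
open scoped ENNReal

noncomputable section

namespace Crest.Agent.N221.En

namespace G2

variable {Y : Type} [MetricSpace Y]

/-- Any two points of `A` are `(p, e)`-close. -/
def Small (T : Y → Y) (e : ℝ) (p : ℕ) (A : Set Y) : Prop := ∀ x ∈ A, ∀ y ∈ A, y ∈ bB T p e x

theorem Small.inter {T : Y → Y} {ε : ℝ} {p : ℕ} {A : Set Y} (hA : Small T (2 * ε) p A) (ℓ : ℕ)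
    (x : Y) : Small T (2 * ε) (p + ℓ) (A ∩ T^[p] ⁻¹' bB T ℓ ε x) := by
  rintro a ⟨ha, ha'⟩ b ⟨hb, hb'⟩ i hi
  by_cases hip : i < p
  · exact hA a ha b hb i hip
  · obtain ⟨j, rfl⟩ : ∃ j, i = j + p := ⟨i - p, by omega⟩
    have hj : j < ℓ := by omega
    have h1 := ha' j hj
    have h2 := hb' j hj
    rw [Function.iterate_add_apply, Function.iterate_add_apply]
    calc dist (T^[j] (T^[p] b)) (T^[j] (T^[p] a))
        ≤ dist (T^[j] (T^[p] b)) (T^[j] x) + dist (T^[j] (T^[p] a)) (T^[j] x) :=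
          dist_triangle_right _ _ _
      _ < 2 * ε := by linarith

variable [MeasurableSpace Y]

theorem small_int (μ : Measure Y) [IsFiniteMeasure μ] {T : Y → Y} {f : Y → ℝ} {e C : ℝ}
    (hC : 0 < C) (hup : ∀ z n, μ.real (bB T n e z) ≤ C * Real.exp (-birkhoffSum T f n z))
    {p : ℕ} {A : Set Y} (hAm : MeasurableSet A) (hA : Small T e p A) :
    ∫⁻ y in A, ENNReal.ofReal (Real.exp (birkhoffSum T f p y)) ∂μ ≤ ENNReal.ofReal C := by
  by_cases h0 : μ A = 0
  · rw [setLIntegral_measure_zero _ _ h0]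
    exact zero_le
  have hpos : 0 < μ.real A := ENNReal.toReal_pos h0 (measure_ne_top μ A)
  have hb : ∀ x ∈ A, ENNReal.ofReal (Real.exp (birkhoffSum T f p x)) ≤
      ENNReal.ofReal (C / μ.real A) := by
    intro x hx
    refine ENNReal.ofReal_le_ofReal ?_
    have h1 : μ.real A ≤ C * Real.exp (-birkhoffSum T f p x) :=
      (measureReal_mono (fun y hy => hA x hx y hy)).trans (hup x p)
    rw [le_div_iff₀ hpos]
    have h2 : Real.exp (birkhoffSum T f p x) * Real.exp (-birkhoffSum T f p x) = 1 := by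
      rw [← Real.exp_add]; simp
    calc Real.exp (birkhoffSum T f p x) * μ.real A
        ≤ Real.exp (birkhoffSum T f p x) * (C * Real.exp (-birkhoffSum T f p x)) := by gcongr
      _ = C * (Real.exp (birkhoffSum T f p x) * Real.exp (-birkhoffSum T f p x)) := by ring
      _ = C := by rw [h2, mul_one]
  calc ∫⁻ y in A, ENNReal.ofReal (Real.exp (birkhoffSum T f p y)) ∂μ
      ≤ ∫⁻ _ in A, ENNReal.ofReal (C / μ.real A) ∂μ := setLIntegral_mono' hAm hb
    _ = ENNReal.ofReal (C / μ.real A) * ENNReal.ofReal (μ.real A) := by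
        rw [setLIntegral_const, ofReal_measureReal]
    _ = ENNReal.ofReal C := by
        rw [← ENNReal.ofReal_mul (by positivity), div_mul_cancel₀ _ hpos.ne']

omit [MetricSpace Y] in
/-- Covering a gap by a spanning set. -/
theorem gap (μ : Measure Y) {A : Set Y} {B : Y → Set Y} (F : Finset Y)
    (hF : ∀ y ∈ A, ∃ x ∈ F, y ∈ B x) (g : Y → ℝ≥0∞) {b N : ℝ} (hb : 0 ≤ b) (hN : (F.card : ℝ) ≤ N)
    (hg : ∀ x, ∫⁻ y in A ∩ B x, g y ∂μ ≤ ENNReal.ofReal b) :
    ∫⁻ y in A, g y ∂μ ≤ ENNReal.ofReal (N * b) := by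
  have hsub : A ⊆ ⋃ x : F, A ∩ B x := by
    intro y hy
    obtain ⟨x, hx, hyx⟩ := hF y hy
    exact mem_iUnion.2 ⟨⟨x, hx⟩, hy, hyx⟩
  calc ∫⁻ y in A, g y ∂μ ≤ ∫⁻ y in ⋃ x : F, A ∩ B x, g y ∂μ := lintegral_mono_set hsub
    _ ≤ ∑' x : F, ∫⁻ y in A ∩ B x, g y ∂μ := lintegral_iUnion_le _ _
    _ ≤ ∑' _ : F, ENNReal.ofReal b := ENNReal.tsum_le_tsum fun x => hg x
    _ = ENNReal.ofReal (F.card * b) := by
        rw [tsum_fintype, Finset.sum_const, Finset.card_univ, Fintype.card_coe, nsmul_eq_mul,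
          ENNReal.ofReal_mul (by positivity), ENNReal.ofReal_natCast]
    _ ≤ ENNReal.ofReal (N * b) := ENNReal.ofReal_le_ofReal (by gcongr)

/-- The weight `2 ^ (number of visits to D along T^[m])`. -/
def W (T : Y → Y) (m : ℕ) (D : Set Y) (J : ℕ) (y : Y) : ℝ≥0∞ :=
  ENNReal.ofReal (Real.exp (Real.log 2 * birkhoffSum T^[m] (D.indicator 1) J y))

omit [MetricSpace Y] [MeasurableSpace Y] in
theorem W_succ (T : Y → Y) (m : ℕ) (D : Set Y) (J : ℕ) (y : Y) :
    W T m D (J + 1) y = W T m D J (T^[m] y) + D.indicator (fun _ => W T m D J (T^[m] y)) y := by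
  unfold W
  rw [birkhoffSum_succ']
  by_cases hy : y ∈ D
  · rw [indicator_of_mem hy, indicator_of_mem hy, ← ENNReal.ofReal_add (by positivity)
      (by positivity), mul_add, Real.exp_add, Pi.one_apply, mul_one,
      Real.exp_log (by norm_num), two_mul]
  · rw [indicator_of_notMem hy, indicator_of_notMem hy, zero_add, add_zero]

omit [MetricSpace Y] in
theorem meas_bS {T : Y → Y} (hT : Measurable T) {g : Y → ℝ} (hg : Measurable g) (n : ℕ) :
    Measurable (birkhoffSum T g n) := by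
  unfold birkhoffSum
  exact Finset.measurable_sum _ fun i _ => hg.comp (hT.iterate i)

omit [MetricSpace Y] in
theorem int_bS {μ : Measure Y} {T : Y → Y} (hT : MeasurePreserving T μ μ) {g : Y → ℝ}
    (hg : Integrable g μ) (n : ℕ) :
    Integrable (birkhoffSum T g n) μ ∧ ∫ y, birkhoffSum T g n y ∂μ = n * ∫ y, g y ∂μ := by
  have h1 : ∀ i : ℕ, Integrable (fun y => g (T^[i] y)) μ := fun i =>
    ((hT.iterate i).integrable_comp hg.aestronglyMeasurable).2 hg
  have h2 : ∀ i : ℕ, ∫ y, g (T^[i] y) ∂μ = ∫ y, g y ∂μ := fun i => by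
    have h := integral_map (μ := μ) (hT.iterate i).measurable.aemeasurable (f := g)
      (by rw [(hT.iterate i).map_eq]; exact hg.aestronglyMeasurable)
    rw [(hT.iterate i).map_eq] at h
    exact h.symm
  unfold birkhoffSum
  refine ⟨integrable_finsetSum _ fun i _ => h1 i, ?_⟩
  rw [integral_finsetSum _ fun i _ => h1 i]
  simp [h2]

omit [MetricSpace Y] in
theorem meas_W {T : Y → Y} (hT : Measurable T) (m : ℕ) {D : Set Y} (hD : MeasurableSet D) (J : ℕ) :
    Measurable (W T m D J) := by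
  unfold W
  have := meas_bS (hT.iterate m) (g := D.indicator 1) (measurable_one.indicator hD) J
  fun_prop

theorem main_ind (μ : Measure Y) [IsFiniteMeasure μ] {T : Y → Y} {f : Y → ℝ} {ε C₀ C₁ h : ℝ}
    (hT : Measurable T) (hf : Measurable f) (hC₀ : 0 < C₀) (hC₁ : 0 ≤ C₁)
    (hup : ∀ z n, μ.real (bB T n (2 * ε) z) ≤ C₀ * Real.exp (-birkhoffSum T f n z))
    (hBm : ∀ n z, MeasurableSet (bB T n ε z))
    (hspan : ∀ ℓ : ℕ, ∃ F : Finset Y, (F.card : ℝ) ≤ C₁ * Real.exp (h * ℓ) ∧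
      ∀ y, ∃ x ∈ F, y ∈ bB T ℓ ε x) (m : ℕ) (z : Y) (J : ℕ) :
    ∀ (p ℓ : ℕ) (A : Set Y), MeasurableSet A → Small T (2 * ε) p A →
      ∫⁻ y in A, ENNReal.ofReal (Real.exp (birkhoffSum T f (p + ℓ + J * m) y)) *
        W T m (bB T m ε z) J (T^[p + ℓ] y) ∂μ ≤
      ENNReal.ofReal (C₀ * C₁ * Real.exp (h * (ℓ + J * m)) *
        (1 + C₁ * Real.exp (-(h * m))) ^ J) := by
  induction J with
  | zero =>
    intro p ℓ A hAm hA
    obtain ⟨F, hFc, hF⟩ := hspan ℓ
    have := gap μ (A := A) (B := fun x => T^[p] ⁻¹' bB T ℓ ε x) F (fun y _ => hF _)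
      (fun y => ENNReal.ofReal (Real.exp (birkhoffSum T f (p + ℓ) y))) hC₀.le hFc
      (fun x => small_int μ hC₀ hup (hAm.inter ((hT.iterate p) (hBm ℓ x))) (hA.inter ℓ x))
    simp only [W, birkhoffSum_zero, mul_zero, Real.exp_zero, ENNReal.ofReal_one, mul_one,
      zero_mul, add_zero, Nat.cast_zero, pow_zero]
    refine this.trans (le_of_eq ?_)
    congr 1
    ring
  | succ J ih =>
    intro p ℓ A hAm hA
    set D := bB T m ε z with hD
    set q := C₁ * Real.exp (-(h * m)) with hq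
    have hq0 : 0 ≤ q := by positivity
    set G : Y → ℝ≥0∞ := fun y => ENNReal.ofReal (Real.exp (birkhoffSum T f (p + ℓ + (J + 1) * m) y)) *
      W T m D J (T^[p + ℓ + m] y) with hG
    have hGm : Measurable G := by
      have h1 := meas_bS hT hf (p + ℓ + (J + 1) * m)
      have h2 := (meas_W hT m (hBm m z) J).comp (hT.iterate (p + ℓ + m))
      exact (ENNReal.measurable_ofReal.comp (Real.measurable_exp.comp h1)).mul h2
    have hDm : MeasurableSet (T^[p + ℓ] ⁻¹' D) := (hT.iterate (p + ℓ)) (hBm m z)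
    have hsplit : ∀ y, ENNReal.ofReal (Real.exp (birkhoffSum T f (p + ℓ + (J + 1) * m) y)) *
        W T m D (J + 1) (T^[p + ℓ] y) = G y + (T^[p + ℓ] ⁻¹' D).indicator G y := by
      intro y
      have hit : T^[m] (T^[p + ℓ] y) = T^[p + ℓ + m] y := by
        rw [← Function.iterate_add_apply, add_comm m]
      rw [W_succ, mul_add, hit]
      congr 1
      by_cases hy : T^[p + ℓ] y ∈ D
      · rw [indicator_of_mem hy, indicator_of_mem (show y ∈ T^[p + ℓ] ⁻¹' D from hy)]
      · rw [indicator_of_notMem hy, indicator_of_notMem (show y ∉ T^[p + ℓ] ⁻¹' D from hy),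
          mul_zero]
    simp only [hsplit]
    rw [lintegral_add_left hGm, setLIntegral_indicator hDm]
    have h1 : ∫⁻ y in A, G y ∂μ ≤
        ENNReal.ofReal (C₀ * C₁ * Real.exp (h * (ℓ + (J + 1 : ℕ) * m)) * (1 + q) ^ J) := by
      have := ih p (ℓ + m) A hAm hA
      have e1 : p + (ℓ + m) + J * m = p + ℓ + (J + 1) * m := by ring
      have e2 : p + (ℓ + m) = p + ℓ + m := by ring
      have e3 : h * (((ℓ + m : ℕ) : ℝ) + J * m) = h * (ℓ + (J + 1 : ℕ) * m) := by
        push_cast; ring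
      rw [e1, e2, e3] at this
      exact this
    have h2 : ∫⁻ y in T^[p + ℓ] ⁻¹' D ∩ A, G y ∂μ ≤
        ENNReal.ofReal (C₀ * C₁ * Real.exp (h * (ℓ + (J + 1 : ℕ) * m)) * (1 + q) ^ J * q) := by
      obtain ⟨F, hFc, hF⟩ := hspan ℓ
      have := gap μ (A := T^[p + ℓ] ⁻¹' D ∩ A) (B := fun x => T^[p] ⁻¹' bB T ℓ ε x) F
        (fun y _ => hF _) G
        (b := C₀ * C₁ * Real.exp (h * ((0 : ℕ) + J * m)) * (1 + q) ^ J) (by positivity) hFc
        (fun x => by
          have hs := (hA.inter ℓ x).inter m z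
          have hm : MeasurableSet (A ∩ T^[p] ⁻¹' bB T ℓ ε x ∩ T^[p + ℓ] ⁻¹' bB T m ε z) :=
            (hAm.inter ((hT.iterate p) (hBm ℓ x))).inter hDm
          have := ih (p + ℓ + m) 0 _ hm hs
          have e1 : p + ℓ + m + 0 + J * m = p + ℓ + (J + 1) * m := by ring
          have e2 : T^[p + ℓ] ⁻¹' D ∩ A ∩ T^[p] ⁻¹' bB T ℓ ε x =
              A ∩ T^[p] ⁻¹' bB T ℓ ε x ∩ T^[p + ℓ] ⁻¹' bB T m ε z := by
            ext y; simp only [hD, mem_inter_iff]; tauto
          rw [e1, add_zero] at this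
          rw [e2]
          exact this)
      refine this.trans (le_of_eq ?_)
      congr 1
      have e : Real.exp (h * (ℓ + (J + 1 : ℕ) * m)) * Real.exp (-(h * m)) =
          Real.exp (h * ℓ) * Real.exp (h * ((0 : ℕ) + J * m)) := by
        rw [← Real.exp_add, ← Real.exp_add]
        congr 1
        push_cast
        ring
      calc C₁ * Real.exp (h * ℓ) * (C₀ * C₁ * Real.exp (h * ((0 : ℕ) + J * m)) * (1 + q) ^ J)
          = C₀ * C₁ * C₁ * (1 + q) ^ J *
            (Real.exp (h * ℓ) * Real.exp (h * ((0 : ℕ) + J * m))) := by ring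
        _ = _ := by rw [← e, hq]; ring
    refine (add_le_add h1 h2).trans (le_of_eq ?_)
    rw [← ENNReal.ofReal_add (by positivity) (by positivity)]
    congr 1
    ring

omit [MetricSpace Y] in
/-- Jensen for `exp`. -/
theorem jensen (μ : Measure Y) [IsProbabilityMeasure μ] {ψ : Y → ℝ} (hψ : Integrable ψ μ)
    {B : ℝ} (hB : 0 ≤ B) (hle : ∫⁻ y, ENNReal.ofReal (Real.exp (ψ y)) ∂μ ≤ ENNReal.ofReal B) :
    Real.exp (∫ y, ψ y ∂μ) ≤ B := by
  have hnn : 0 ≤ᵐ[μ] fun y => Real.exp (ψ y) := ae_of_all _ fun y => (Real.exp_pos _).le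
  have hint : Integrable (fun y => Real.exp (ψ y)) μ :=
    (lintegral_ofReal_ne_top_iff_integrable
      (Real.continuous_exp.comp_aestronglyMeasurable hψ.aestronglyMeasurable) hnn).1
      (ne_top_of_le_ne_top ENNReal.ofReal_ne_top hle)
  rw [← ofReal_integral_eq_lintegral_ofReal hint hnn, ENNReal.ofReal_le_ofReal_iff hB] at hle
  refine le_trans ?_ hle
  set c := ∫ y, ψ y ∂μ with hc
  have h1 : ∀ y, Real.exp c * (ψ y - c + 1) ≤ Real.exp (ψ y) := fun y => by
    have := Real.add_one_le_exp (ψ y - c)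
    calc Real.exp c * (ψ y - c + 1) ≤ Real.exp c * Real.exp (ψ y - c) := by gcongr
      _ = Real.exp (ψ y) := by rw [← Real.exp_add]; simp
  have h3 : Integrable (fun y => ψ y - c) μ := hψ.sub (integrable_const _)
  have h2 : Integrable (fun y => ψ y - c + 1) μ := h3.add (integrable_const _)
  calc Real.exp c = ∫ y, Real.exp c * (ψ y - c + 1) ∂μ := by
        rw [integral_const_mul, integral_add h3 (integrable_const _),
          integral_sub hψ (integrable_const _)]
        simp [hc]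
    _ ≤ _ := integral_mono (h2.const_mul _) hint h1

end G2

open G2 in
theorem sG2 (hS : StmtS0) : StmtG2 := by
  intro Y _ _ _ _ μ _ T f hTc hT hfc hUp hLow h hex hle
  obtain ⟨hopen, -, -, hmax⟩ := hS Y T hTc
  obtain ⟨ε₀, hε₀, C₀, hC₀, hup⟩ := hUp
  obtain ⟨ε, rfl⟩ : ∃ ε, ε₀ = 2 * ε := ⟨ε₀ / 2, by ring⟩
  have hε : 0 < ε := by linarith
  obtain ⟨C₁', hC₁'⟩ := hex ε hε
  set C₁ := max C₁' 1 with hC₁d
  have hC₁ : 0 < C₁ := lt_of_lt_of_le one_pos (le_max_right _ _)
  have hspan : ∀ ℓ : ℕ, ∃ F : Finset Y, (F.card : ℝ) ≤ C₁ * Real.exp (h * ℓ) ∧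
      ∀ y, ∃ x ∈ F, y ∈ bB T ℓ ε x := by
    intro ℓ
    obtain ⟨F, hF, hsp, -⟩ := hmax ℓ ε hε
    refine ⟨F, (hC₁' ℓ F hF).trans ?_, hsp⟩
    gcongr
    exact le_max_left _ _
  obtain ⟨c, hc, hlow⟩ := hLow ε hε
  have hBm : ∀ n z, MeasurableSet (bB T n ε z) := fun n z => (hopen n ε z).measurableSet
  have hfi : Integrable f μ := hfc.integrable_of_hasCompactSupport (HasCompactSupport.of_compactSpace f)
  have hl2 : 0 < Real.log 2 := Real.log_pos one_lt_two
  have key : ∀ (z : Y) (m : ℕ),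
      Real.log 2 * μ.real (bB T m ε z) ≤ C₁ * Real.exp (-(h * m)) := by
    intro z m
    set q := C₁ * Real.exp (-(h * m)) with hq
    have hq0 : 0 ≤ q := by positivity
    have hJ : ∀ J : ℕ, J * (Real.log 2 * μ.real (bB T m ε z) - q) ≤ Real.log (C₀ * C₁) := by
      intro J
      have h1 := main_ind μ hT.measurable hfc.measurable hC₀ hC₁.le hup hBm hspan m z J 0 0 univ
        MeasurableSet.univ (fun x _ y _ i hi => absurd hi (Nat.not_lt_zero i))
      have hDi : Integrable ((bB T m ε z).indicator (1 : Y → ℝ)) μ :=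
        (integrable_const (1 : ℝ)).indicator (hBm m z)
      obtain ⟨i1, e1⟩ := int_bS hT hfi (J * m)
      obtain ⟨i2, e2⟩ := int_bS (hT.iterate m) hDi J
      have h2 := jensen μ (ψ := fun y => birkhoffSum T f (J * m) y +
          Real.log 2 * birkhoffSum T^[m] ((bB T m ε z).indicator 1) J y)
        (i1.add (i2.const_mul _))
        (B := C₀ * C₁ * Real.exp (h * ((0 : ℕ) + J * m)) * (1 + q) ^ J) (by positivity) (by
          refine le_of_eq_of_le ?_ h1
          rw [Measure.restrict_univ]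
          refine lintegral_congr fun y => ?_
          simp only [W, zero_add, Function.iterate_zero, id_eq, add_zero]
          rw [Real.exp_add, ENNReal.ofReal_mul (Real.exp_pos _).le])
      rw [integral_add i1 (i2.const_mul _), integral_const_mul, e1, e2,
        integral_indicator_one (hBm m z)] at h2
      have h3 : (1 + q) ^ J ≤ Real.exp (J * q) := by
        rw [Real.exp_nat_mul]
        gcongr
        linarith [Real.add_one_le_exp q]
      have h4 : C₀ * C₁ * Real.exp (h * ((0 : ℕ) + J * m)) * (1 + q) ^ J ≤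
          Real.exp (Real.log (C₀ * C₁) + h * (J * m) + J * q) := by
        rw [Real.exp_add, Real.exp_add, Real.exp_log (by positivity)]
        simp only [Nat.cast_zero, zero_add]
        gcongr
      have h5 := Real.exp_le_exp.1 (h2.trans h4)
      have h6 : h * (J * m) ≤ ((J * m : ℕ) : ℝ) * ∫ y, f y ∂μ := by
        push_cast
        rw [mul_comm h]
        gcongr
      nlinarith
    by_contra hcon
    push Not at hcon
    obtain ⟨J, hJ'⟩ := exists_nat_gt (Real.log (C₀ * C₁) / (Real.log 2 * μ.real (bB T m ε z) - q))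
    rw [div_lt_iff₀ (by linarith)] at hJ'
    linarith [hJ J]
  refine ⟨Real.log (C₁ / (Real.log 2 * c)), fun z n => ?_⟩
  have h1 : Real.log 2 * (c * Real.exp (-birkhoffSum T f n z)) ≤ C₁ * Real.exp (-(h * n)) :=
    le_trans (by gcongr; exact hlow z n) (key z n)
  have h2 : Real.exp (h * n - birkhoffSum T f n z) ≤ C₁ / (Real.log 2 * c) := by
    rw [le_div_iff₀ (by positivity), sub_eq_add_neg, Real.exp_add]
    have h3 : Real.exp (h * n) * Real.exp (-(h * n)) = 1 := by rw [← Real.exp_add]; simp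
    calc Real.exp (h * n) * Real.exp (-birkhoffSum T f n z) * (Real.log 2 * c)
        = Real.exp (h * n) * (Real.log 2 * (c * Real.exp (-birkhoffSum T f n z))) := by ring
      _ ≤ Real.exp (h * n) * (C₁ * Real.exp (-(h * n))) := by gcongr
      _ = C₁ * (Real.exp (h * n) * Real.exp (-(h * n))) := by ring
      _ = C₁ := by rw [h3, mul_one]
  have h4 := (Real.le_log_iff_exp_le (by positivity)).2 h2
  linarith

end Crest.Agent.N221.En
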