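import Crest.Agent.N221.En.Defs

/-!
# Row 221, abstract ergodic layer: leaf G3 (a one-sided bound is two-sided)
-/

set_option autoImplicit false

open MeasureTheory Set Filter Topology

noncomputable section

namespace Crest.Agent.N221.En

namespace G3

variable {Y : Type} [MetricSpace Y] [MeasurableSpace Y] {μ : Measure Y} {T : Y → Y}

theorem openPos {f : Y → ℝ} (h : DLow μ T f) : μ.IsOpenPosMeasure := by
  refine ⟨fun U hU ⟨z, hz⟩ h0 => ?_⟩
  obtain ⟨ε, hε, hb⟩ := Metric.isOpen_iff.1 hU z hz
  obtain ⟨c, hc, h1⟩ := h ε hε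
  have h2 : μ (bB T 1 ε z) = 0 := measure_mono_null (fun y hy => hb (hy 0 one_pos)) h0
  have h3 := h1 z 1
  rw [measureReal_def, h2, ENNReal.toReal_zero] at h3
  exact absurd h3 (not_le.2 (by positivity))

omit [MetricSpace Y] in
theorem int_comp (hT : MeasurePreserving T μ μ) {g : Y → ℝ} (hg : AEStronglyMeasurable g μ) :
    ∫ y, g (T y) ∂μ = ∫ y, g y ∂μ := by
  rw [← integral_map hT.measurable.aemeasurable (by rwa [hT.map_eq]), hT.map_eq]

end G3

open G3 in
theorem sG3 : StmtG3 := by
  intro Y _ _ _ _ μ _ T f hT hμ hf hL h C hh hC z n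
  have := openPos hL
  have hS : ∀ m, Continuous (birkhoffSum T f m) := fun m =>
    continuous_finsetSum _ fun i _ => hf.comp (hT.iterate i)
  have hfi : Integrable f μ := hf.integrable_of_hasCompactSupport (HasCompactSupport.of_compactSpace _)
  have hI : ∫ y, birkhoffSum T f n y ∂μ = n * ∫ y, f y ∂μ := by
    simp only [birkhoffSum]
    rw [integral_finsetSum (f := fun i y => f (T^[i] y)) _
      fun i _ => (hμ.iterate i).integrable_comp_of_integrable hfi,
      Finset.sum_congr rfl fun i _ => int_comp (hμ.iterate i) hfi.1]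
    simp
  set b : Y → ℝ := fun y => ⨅ m : ℕ, (birkhoffSum T f m y - h * m) with hb
  have hlo : ∀ y (m : ℕ), -C ≤ birkhoffSum T f m y - h * m := fun y m => by linarith [hC y m]
  have hbd : ∀ y, BddBelow (range fun m : ℕ => birkhoffSum T f m y - h * m) := fun y =>
    ⟨-C, forall_mem_range.2 (hlo y)⟩
  have b1 : ∀ y, -C ≤ b y := fun y => le_ciInf (hlo y)
  have b2 : ∀ y, b y ≤ 0 := fun y => by simpa using ciInf_le (hbd y) 0
  have bm : Measurable b := Measurable.iInf fun m => ((hS m).sub continuous_const).measurable
  have bi : Integrable b μ := Integrable.of_bound bm.aestronglyMeasurable C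
    (ae_of_all _ fun y => abs_le.2 ⟨b1 y, by linarith [b1 y, b2 y]⟩)
  have biT : Integrable (fun y => b (T^[n] y)) μ := (hμ.iterate n).integrable_comp_of_integrable bi
  have Si : Integrable (fun y => birkhoffSum T f n y - h * n) μ :=
    ((hS n).sub continuous_const).integrable_of_hasCompactSupport
      (HasCompactSupport.of_compactSpace _)
  have bd : Integrable (fun y => b (T^[n] y) - b y) μ := biT.sub bi
  have g0 : ∀ y, 0 ≤ birkhoffSum T f n y - h * n + (b (T^[n] y) - b y) := fun y => by
    have : b y - (birkhoffSum T f n y - h * n) ≤ b (T^[n] y) := le_ciInf fun m => by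
      have := ciInf_le (hbd y) (n + m)
      rw [birkhoffSum_add] at this
      push_cast at this
      simp only [hb]
      linarith
    linarith
  have gi : ∫ y, (birkhoffSum T f n y - h * n + (b (T^[n] y) - b y)) ∂μ = 0 := by
    refine le_antisymm ?_ (integral_nonneg g0)
    rw [integral_add Si bd, integral_sub biT bi, int_comp (hμ.iterate n) bi.1, sub_self,
      integral_sub ((hS n).integrable_of_hasCompactSupport (HasCompactSupport.of_compactSpace _))
        (integrable_const _), hI]
    simp only [integral_const, probReal_univ, one_smul]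
    nlinarith [mul_le_mul_of_nonneg_left hh (Nat.cast_nonneg (α := ℝ) n)]
  have ae : ∀ᵐ y ∂μ, birkhoffSum T f n y - h * n ≤ C := by
    filter_upwards [(integral_eq_zero_iff_of_nonneg g0 (Si.add bd)).1 gi] with y hy
    simp only [Pi.zero_apply] at hy
    linarith [b1 (T^[n] y), b2 y]
  have cl : IsClosed {y | birkhoffSum T f n y - h * n ≤ C} :=
    isClosed_le ((hS n).sub continuous_const) continuous_const
  exact abs_le.2 ⟨hlo z n, cl.closure_subset (Measure.dense_of_ae ae z)⟩

end Crest.Agent.N221.En
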