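import Crest.Agent.N221.En.Defs

/-! # Row 221, ergodic layer: `K0`, the word form of the entropy (helper36) -/

set_option autoImplicit false

open MeasureTheory Set Filter Topology
open Crest.GeometryTopology.Submanifold

noncomputable section

namespace Crest.Agent.N221.En

namespace K0

variable {Y : Type}

theorem disj (T : Y → Y) {P : Finset (Set Y)} (k : ℕ)
    (hP : ∀ A ∈ P, ∀ B ∈ P, A ≠ B → Disjoint A B) (w w' : Fin k → P) (h : w ≠ w') :
    Disjoint (cyl T P k w) (cyl T P k w') := by
  obtain ⟨i, hi⟩ := Function.ne_iff.1 h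
  have hd := hP _ (w i).2 _ (w' i).2 fun e => hi (Subtype.ext e)
  exact Set.disjoint_left.2 fun y h1 h2 =>
    Set.disjoint_left.1 hd (mem_iInter.1 h1 i) (mem_iInter.1 h2 i)

theorem mem_join {T : Y → Y} {P : Finset (Set Y)} {k : ℕ} {A : Set Y} :
    A ∈ iteratedJoin T P k ↔ ∃ w, cyl T P k w = A := by
  simp only [iteratedJoin, Finset.mem_image, Finset.mem_univ, true_and, cyl]

variable [MeasurableSpace Y]

theorem ent_eq (μ : Measure Y) (Q : Finset (Set Y)) :
    partitionEntropy μ Q = ∑ A ∈ Q, Real.negMulLog (μ.real A) := by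
  rw [partitionEntropy, ← Finset.sum_neg_distrib]
  exact Finset.sum_congr rfl fun A _ => by rw [Real.negMulLog, neg_mul]; rfl

end K0

open K0 in
theorem sK0 : StmtK0 := by
  intro Y _ μ T P k
  refine ⟨fun hP => ⟨disj T k hP, ?_⟩, fun _ hT hP => ?_, fun _ => ?_⟩
  · rw [ent_eq, iteratedJoin]
    exact Finset.sum_image_of_disjoint (g := fun A => Real.negMulLog (μ.real A)) (by simp)
      fun w _ w' _ h => disj T k hP w w' h
  · have hm : ∀ w : Fin k → P, MeasurableSet (cyl T P k w) := fun w =>
      MeasurableSet.iInter fun i => (hT.iterate i).measurable (hP.1 _ (w i).2)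
    have hae : ∀ᵐ y ∂μ, ∃ w : Fin k → P, y ∈ cyl T P k w := by
      have h0 : ∀ᵐ y ∂μ, y ∈ ⋃ A ∈ P, A := hP.2.2
      filter_upwards [ae_all_iff.2 fun i : Fin k =>
        (hT.iterate i).quasiMeasurePreserving.ae h0] with y hy
      simp only [mem_iUnion] at hy
      choose A hA hy using hy
      exact ⟨fun i => ⟨A i, hA i⟩, mem_iInter.2 hy⟩
    refine ⟨hm, hae, fun g hg => ?_⟩
    rw [← integral_iUnion_fintype hm (fun w w' h => disj T k hP.2.1 w w' h)
      fun _ => hg.integrableOn, Measure.restrict_eq_self_of_ae_mem]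
    filter_upwards [hae] with y hy using mem_iUnion.2 hy
  · rw [ent_eq]
    exact Finset.sum_nonneg fun A _ => Real.negMulLog_nonneg measureReal_nonneg measureReal_le_one

end Crest.Agent.N221.En
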