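import Crest.Agent.N221.En.Defs

/-! # Row 221, abstract ergodic layer: leaf K1 (`rate ≤ ∫ f`) (helper33) -/

set_option autoImplicit false

open MeasureTheory Set Filter Topology
open Crest.GeometryTopology.Submanifold

noncomputable section

namespace Crest.Agent.N221.En

namespace K1

/-- Gibbs inequality. -/
theorem gibbs {ι : Type} [Fintype ι] (p a : ι → ℝ) (hp : ∀ i, 0 ≤ p i) (hs : ∑ i, p i = 1)
    {Z : ℝ} (hZ : 0 < Z) (s : Finset ι) (hs0 : ∀ i, i ∉ s → p i = 0)
    (hle : ∑ i ∈ s, Real.exp (a i) ≤ Z) :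
    ∑ i, (Real.negMulLog (p i) + p i * a i) ≤ Real.log Z := by
  classical
  have h1 : ∀ i, Real.negMulLog (p i) + p i * a i ≤
      p i * Real.log Z + ((if i ∈ s then Real.exp (a i) else 0) / Z - p i) := by
    intro i
    rcases (hp i).eq_or_lt with h0 | h0
    · rw [← h0]
      have : 0 ≤ (if i ∈ s then Real.exp (a i) else 0) / Z := by
        split_ifs
        · positivity
        · simp
      simpa using this
    · have hi : i ∈ s := by
        by_contra hi
        exact h0.ne' (hs0 i hi)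
      rw [if_pos hi]
      have h2 := Real.log_le_sub_one_of_pos (x := Real.exp (a i) / (p i * Z)) (by positivity)
      rw [Real.log_div (by positivity) (by positivity), Real.log_exp,
        Real.log_mul h0.ne' hZ.ne'] at h2
      have h3 : p i * (a i - (Real.log (p i) + Real.log Z)) ≤
          p i * (Real.exp (a i) / (p i * Z) - 1) := by gcongr
      have h4 : p i * (Real.exp (a i) / (p i * Z) - 1) = Real.exp (a i) / Z - p i := by
        field_simp
      rw [h4] at h3
      unfold Real.negMulLog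
      linarith
  calc ∑ i, (Real.negMulLog (p i) + p i * a i)
      ≤ ∑ i, (p i * Real.log Z + ((if i ∈ s then Real.exp (a i) else 0) / Z - p i)) :=
        Finset.sum_le_sum fun i _ => h1 i
    _ = Real.log Z + ((∑ i ∈ s, Real.exp (a i)) / Z - 1) := by
        rw [Finset.sum_add_distrib, ← Finset.sum_mul, Finset.sum_sub_distrib, hs, one_mul,
          ← Finset.sum_div, Finset.sum_ite_mem, Finset.univ_inter]
    _ ≤ Real.log Z := by
        have : (∑ i ∈ s, Real.exp (a i)) / Z ≤ 1 := (div_le_one hZ).2 hle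
        linarith

theorem int_bS {Y : Type} [MeasurableSpace Y] {μ : Measure Y} {T : Y → Y}
    (hT : MeasurePreserving T μ μ) {g : Y → ℝ} (hg : Integrable g μ) (n : ℕ) :
    Integrable (birkhoffSum T g n) μ ∧ ∫ y, birkhoffSum T g n y ∂μ = n * ∫ y, g y ∂μ := by
  have h1 : ∀ i : ℕ, Integrable (fun y => g (T^[i] y)) μ := fun i =>
    ((hT.iterate i).integrable_comp hg.aestronglyMeasurable).2 hg
  have h2 : ∀ i : ℕ, ∫ y, g (T^[i] y) ∂μ = ∫ y, g y ∂μ := fun i => by
    have h := integral_map (μ := μ) (hT.iterate i).measurable.aemeasurable (f := g)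
      (by rw [(hT.iterate i).map_eq]; exact hg.aestronglyMeasurable)
    rw [(hT.iterate i).map_eq] at h
    exact h.symm
  unfold birkhoffSum
  refine ⟨integrable_finsetSum _ fun i _ => h1 i, ?_⟩
  rw [integral_finsetSum _ fun i _ => h1 i]
  simp [h2]

/-- Lusin-type lemma for a finite partition. -/
theorem lusin {Y : Type} [MetricSpace Y] [CompactSpace Y] [MeasurableSpace Y] [BorelSpace Y]
    (μ : Measure Y) [IsProbabilityMeasure μ] {P : Finset (Set Y)} (hP : IsPartitionMod μ P)
    {δ : ℝ} (hδ : 0 < δ) :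
    ∃ G : Set Y, MeasurableSet G ∧ μ.real Gᶜ ≤ δ ∧ ∃ ε > 0, ∀ x ∈ G, ∀ y ∈ G, dist x y < 2 * ε →
      ∀ A ∈ P, ∀ B ∈ P, x ∈ A → y ∈ B → A = B := by
  obtain ⟨hm, hd, hc⟩ := hP
  have hK : ∀ A : P, ∃ K ⊆ (A : Set Y), IsCompact K ∧
      μ ((A : Set Y) \ K) < ENNReal.ofReal (δ / (P.card + 1)) := fun A =>
    (hm A A.2).exists_isCompact_sdiff_lt (measure_ne_top _ _)
      (ENNReal.ofReal_pos.2 (by positivity)).ne'
  choose K hKs hKc hKμ using hK
  refine ⟨⋃ A, K A, MeasurableSet.iUnion fun A => (hKc A).isClosed.measurableSet, ?_, ?_⟩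
  · have hsub : (⋃ A, K A)ᶜ ⊆ (⋃ A ∈ P, A)ᶜ ∪ ⋃ A : P, ((A : Set Y) \ K A) := by
      intro y hy
      by_cases h : y ∈ ⋃ A ∈ P, A
      · right
        simp only [mem_iUnion] at h
        obtain ⟨A, hA, hyA⟩ := h
        exact mem_iUnion.2 ⟨⟨A, hA⟩, hyA, fun hk => hy (mem_iUnion.2 ⟨_, hk⟩)⟩
      · exact Or.inl h
    calc μ.real (⋃ A, K A)ᶜ ≤ μ.real ((⋃ A ∈ P, A)ᶜ ∪ ⋃ A : P, ((A : Set Y) \ K A)) :=
          measureReal_mono hsub
      _ ≤ μ.real (⋃ A ∈ P, A)ᶜ + μ.real (⋃ A : P, ((A : Set Y) \ K A)) :=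
          measureReal_union_le _ _
      _ ≤ 0 + ∑ A : P, μ.real ((A : Set Y) \ K A) := by
          refine add_le_add (by rw [Measure.real, hc]; simp) (measureReal_iUnion_fintype_le _)
      _ ≤ 0 + ∑ _A : P, δ / (P.card + 1) := by
          gcongr with A
          exact ENNReal.toReal_le_of_le_ofReal (by positivity) (hKμ A).le
      _ ≤ δ := by
          rw [zero_add, Finset.sum_const, Finset.card_univ, Fintype.card_coe, nsmul_eq_mul,
            mul_div_assoc', div_le_iff₀ (by positivity)]
          nlinarith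
  · have hZ : IsCompact (⋃ A : P, ⋃ B : P, ⋃ _ : A ≠ B, K A ×ˢ K B) :=
      isCompact_iUnion fun A => isCompact_iUnion fun B => isCompact_iUnion fun _ =>
        (hKc A).prod (hKc B)
    obtain ⟨a, ha, hb⟩ := hZ.exists_forall_le' (f := fun q : Y × Y => dist q.1 q.2) (a := 0)
      (continuous_dist.continuousOn) (by
        intro q hq
        simp only [mem_iUnion] at hq
        obtain ⟨A, B, hAB, h1, h2⟩ := hq
        refine dist_pos.2 fun he => ?_
        have hne : (A : Set Y) ≠ B := fun h => hAB (Subtype.ext h)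
        exact Set.disjoint_left.1 (hd A A.2 B B.2 hne) (hKs A h1) (he ▸ hKs B h2))
    refine ⟨a / 2, by positivity, fun x hx y hy hxy A hA B hB hxA hyB => ?_⟩
    obtain ⟨A', hA'⟩ := mem_iUnion.1 hx
    obtain ⟨B', hB'⟩ := mem_iUnion.1 hy
    have e1 : A = A' := by
      by_contra h
      exact Set.disjoint_left.1 (hd A hA A' A'.2 h) hxA (hKs A' hA')
    have e2 : B = B' := by
      by_contra h
      exact Set.disjoint_left.1 (hd B hB B' B'.2 h) hyB (hKs B' hB')
    have e3 : A' = B' := by
      by_contra h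
      have := hb (x, y) (by
        simp only [mem_iUnion]
        exact ⟨A', B', h, hA', hB'⟩)
      simp only at this
      linarith
    rw [e1, e2, e3]

open Classical in
/-- The counting bound at a fixed point `y`. -/
theorem count {Y : Type} [MetricSpace Y] {T : Y → Y} {P : Finset (Set Y)} {G : Set Y} {ε : ℝ}
    (hsep : ∀ x ∈ G, ∀ y ∈ G, dist x y < 2 * ε → ∀ A ∈ P, ∀ B ∈ P, x ∈ A → y ∈ B → A = B)
    {n : ℕ} (s : Finset (Fin n → P)) (x : (Fin n → P) → Y) (hx : ∀ w ∈ s, x w ∈ cyl T P n w)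
    (lam : ℝ) (y : Y) :
    ∑ w ∈ s, (bB T n ε (x w)).indicator
        (fun _ => Real.exp (-(lam * birkhoffSum T (Gᶜ.indicator 1) n (x w)))) y ≤
      (1 + P.card * Real.exp (-lam)) ^ n := by
  set wt : Option P → ℝ := fun o => o.elim 1 fun _ => Real.exp (-lam) with hwt
  have hwt0 : ∀ o, 0 ≤ wt o := by
    rintro (_ | o)
    · simp [hwt]
    · simp only [hwt, Option.elim]; positivity
  set u : (Fin n → P) → Fin n → Option P :=
    fun w i => if T^[i] (x w) ∈ G then none else some (w i) with hu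
  have hexp : ∀ w, Real.exp (-(lam * birkhoffSum T (Gᶜ.indicator 1) n (x w))) =
      ∏ i, wt (u w i) := by
    intro w
    unfold birkhoffSum
    rw [Finset.mul_sum, ← Finset.sum_neg_distrib, Real.exp_sum, Finset.prod_range]
    refine Finset.prod_congr rfl fun i _ => ?_
    by_cases h : T^[i] (x w) ∈ G
    · simp [hu, hwt, h]
    · simp [hu, hwt, h]
  have hinj : Set.InjOn u (s.filter fun w => y ∈ bB T n ε (x w)) := by
    intro w hw w' hw' he
    simp only [Finset.coe_filter, mem_ofPred_eq] at hw hw'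
    funext i
    have hi := congrFun he i
    simp only [hu] at hi
    by_cases h : T^[i] (x w) ∈ G
    · by_cases h' : T^[i] (x w') ∈ G
      · refine Subtype.ext (hsep _ h _ h' ?_ _ (w i).2 _ (w' i).2 (mem_iInter.1 (hx w hw.1) i)
          (mem_iInter.1 (hx w' hw'.1) i))
        have h1 := hw.2 i i.2
        have h2 := hw'.2 i i.2
        calc dist (T^[i] (x w)) (T^[i] (x w'))
            ≤ dist (T^[i] y) (T^[i] (x w)) + dist (T^[i] y) (T^[i] (x w')) :=
              dist_triangle_left _ _ _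
          _ < 2 * ε := by linarith
      · simp [h, h'] at hi
    · by_cases h' : T^[i] (x w') ∈ G
      · simp [h, h'] at hi
      · simpa [h, h'] using hi
  calc ∑ w ∈ s, (bB T n ε (x w)).indicator
        (fun _ => Real.exp (-(lam * birkhoffSum T (Gᶜ.indicator 1) n (x w)))) y
      = ∑ w ∈ s.filter (fun w => y ∈ bB T n ε (x w)), ∏ i, wt (u w i) := by
        rw [Finset.sum_filter]
        refine Finset.sum_congr rfl fun w _ => ?_
        rw [indicator_apply, hexp]
    _ = ∑ v ∈ (s.filter (fun w => y ∈ bB T n ε (x w))).image u, ∏ i, wt (v i) :=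
        (Finset.sum_image (f := fun v : Fin n → Option P => ∏ i, wt (v i)) hinj).symm
    _ ≤ ∑ v : Fin n → Option P, ∏ i, wt (v i) :=
        Finset.sum_le_sum_of_subset_of_nonneg (Finset.subset_univ _) fun v _ _ =>
          Finset.prod_nonneg fun i _ => hwt0 _
    _ = (∑ o, wt o) ^ n := by
        rw [← Fintype.piFinset_univ, ← Finset.prod_univ_sum]
        simp
    _ = (1 + P.card * Real.exp (-lam)) ^ n := by
        rw [Fintype.sum_option]
        simp [hwt]

end K1

open K1 in
theorem sK1 (h0 : StmtK0) (hS : StmtS0) : StmtK1 := by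
  intro Y _ _ _ _ μ _ T f hTc hT hfc hLow P hP
  classical
  obtain ⟨hopen, -, -, -⟩ := hS Y T hTc
  have hfi : Integrable f μ :=
    hfc.integrable_of_hasCompactSupport (HasCompactSupport.of_compactSpace f)
  obtain ⟨y0⟩ : Nonempty Y := nonempty_of_isProbabilityMeasure μ
  refine le_of_forall_pos_le_add fun η2 hη2 => ?_
  set η := η2 / 2 with hηd
  have hη : 0 < η := by positivity
  obtain ⟨lam, hlam0, hlam⟩ : ∃ lam : ℝ, 0 < lam ∧ P.card * Real.exp (-lam) ≤ η := by
    refine ⟨(P.card + 1) / η, by positivity, ?_⟩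
    have h1 := Real.add_one_le_exp ((P.card + 1) / η)
    rw [Real.exp_neg, ← div_eq_mul_inv, div_le_iff₀ (Real.exp_pos _)]
    calc (P.card : ℝ) ≤ η * ((P.card + 1) / η + 1) := by
          rw [mul_add, mul_div_cancel₀ _ hη.ne']; linarith
      _ ≤ _ := by gcongr
  obtain ⟨G, hGm, hGμ, ε, hε, hsep⟩ := lusin μ hP (δ := η / lam) (by positivity)
  obtain ⟨c, hc, hlow⟩ := hLow ε hε
  have key : ∀ n : ℕ, partitionEntropy μ (iteratedJoin T P n) ≤
      n * (∫ y, f y ∂μ + 2 * η) - Real.log c := by
    intro n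
    obtain ⟨ha, hb, -⟩ := h0 Y μ T P n
    obtain ⟨-, hent⟩ := ha hP.2.1
    obtain ⟨hcm, -, hsum⟩ := hb inferInstance hT hP
    have hGi : Integrable (Gᶜ.indicator (1 : Y → ℝ)) μ :=
      (integrable_const (1 : ℝ)).indicator hGm.compl
    obtain ⟨i1, e1⟩ := int_bS hT hfi n
    obtain ⟨i2, e2⟩ := int_bS hT hGi n
    set ψ : Y → ℝ := fun y => -birkhoffSum T f n y -
      lam * birkhoffSum T (Gᶜ.indicator 1) n y with hψ
    have hψi : Integrable ψ μ := i1.neg.sub (i2.const_mul _)
    have hψe : ∫ y, ψ y ∂μ = -(n * ∫ y, f y ∂μ) - lam * (n * μ.real Gᶜ) := by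
      have i3 : Integrable (fun y => -birkhoffSum T f n y) μ := i1.neg
      rw [hψ, integral_sub i3 (i2.const_mul _), integral_neg, integral_const_mul, e1, e2,
        integral_indicator_one hGm.compl]
    have hch : ∀ w : Fin n → P, ∃ x : Y, (μ.real (cyl T P n w) ≠ 0 → x ∈ cyl T P n w) ∧
        ∫ y in cyl T P n w, ψ y ∂μ ≤ μ.real (cyl T P n w) * ψ x := by
      intro w
      by_cases hw : μ (cyl T P n w) = 0
      · refine ⟨y0, fun h => absurd (by simp [Measure.real, hw]) h, ?_⟩
        rw [setIntegral_measure_zero _ hw]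
        simp [Measure.real, hw]
      · obtain ⟨x, hx, hle⟩ := exists_setAverage_le hw (measure_ne_top _ _) hψi.integrableOn
        refine ⟨x, fun _ => hx, ?_⟩
        have hpos : 0 < μ.real (cyl T P n w) := ENNReal.toReal_pos hw (measure_ne_top _ _)
        rw [setAverage_eq, smul_eq_mul, inv_mul_le_iff₀ hpos] at hle
        exact hle
    choose x hx hxle using hch
    set s : Finset (Fin n → P) := Finset.univ.filter fun w => μ.real (cyl T P n w) ≠ 0 with hs
    have hp1 : ∑ w : Fin n → P, μ.real (cyl T P n w) = 1 := by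
      have := hsum (fun _ => (1 : ℝ)) (integrable_const _)
      simpa using this
    have hZ : ∑ w ∈ s, Real.exp (ψ (x w)) ≤ (1 + P.card * Real.exp (-lam)) ^ n / c := by
      rw [le_div_iff₀ hc, Finset.sum_mul]
      have hi : ∀ w ∈ s, Integrable (fun y => (bB T n ε (x w)).indicator
          (fun _ => Real.exp (-(lam * birkhoffSum T (Gᶜ.indicator 1) n (x w)))) y) μ :=
        fun w _ => (integrable_const _).indicator (hopen n ε _).measurableSet
      calc ∑ w ∈ s, Real.exp (ψ (x w)) * c
          ≤ ∑ w ∈ s, ∫ y, (bB T n ε (x w)).indicator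
            (fun _ => Real.exp (-(lam * birkhoffSum T (Gᶜ.indicator 1) n (x w)))) y ∂μ := by
            refine Finset.sum_le_sum fun w _ => ?_
            rw [integral_indicator_const _ (hopen n ε _).measurableSet, smul_eq_mul, hψ]
            simp only
            rw [sub_eq_add_neg, Real.exp_add, mul_right_comm, mul_comm _ c]
            gcongr
            exact hlow _ _
        _ = ∫ y, ∑ w ∈ s, (bB T n ε (x w)).indicator
            (fun _ => Real.exp (-(lam * birkhoffSum T (Gᶜ.indicator 1) n (x w)))) y ∂μ :=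
            (integral_finsetSum _ hi).symm
        _ ≤ ∫ _, (1 + P.card * Real.exp (-lam)) ^ n ∂μ :=
            integral_mono (integrable_finsetSum _ hi) (integrable_const _) fun y =>
              count hsep s x (fun w hw => hx w (Finset.mem_filter.1 hw).2) lam y
        _ = _ := by simp
    have hg := gibbs (fun w => μ.real (cyl T P n w)) (fun w => ψ (x w))
      (fun _ => measureReal_nonneg) hp1 (by positivity) s
      (fun w hw => by simpa [hs] using hw) hZ
    rw [Finset.sum_add_distrib, ← hent] at hg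
    have h1 : ∫ y, ψ y ∂μ ≤ ∑ w : Fin n → P, μ.real (cyl T P n w) * ψ (x w) := by
      rw [← hsum ψ hψi]
      exact Finset.sum_le_sum fun w _ => hxle w
    have h2 : Real.log ((1 + P.card * Real.exp (-lam)) ^ n / c) ≤ n * η - Real.log c := by
      rw [Real.log_div (by positivity) hc.ne', Real.log_pow]
      have := Real.log_le_sub_one_of_pos (x := 1 + P.card * Real.exp (-lam)) (by positivity)
      gcongr
      linarith
    have h3 : lam * (n * μ.real Gᶜ) ≤ n * η := by
      calc lam * (n * μ.real Gᶜ) ≤ lam * (n * (η / lam)) := by gcongr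
        _ = n * η := by field_simp
    linarith
  have hbdd : BddBelow (range fun k : ℕ =>
      partitionEntropy μ (iteratedJoin T P (k + 1)) / (k + 1)) := by
    refine ⟨0, ?_⟩
    rintro _ ⟨k, rfl⟩
    exact div_nonneg ((h0 Y μ T P (k + 1)).2.2 inferInstance) (by positivity)
  have hk : ∀ k : ℕ, rate μ T P ≤ ∫ y, f y ∂μ + η2 + (-Real.log c) * (1 / ((k : ℝ) + 1)) := by
    intro k
    refine (ciInf_le hbdd k).trans ?_
    rw [div_le_iff₀ (by positivity)]
    refine (key (k + 1)).trans (le_of_eq ?_)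
    push_cast
    rw [hηd]
    field_simp
    ring
  have hlim : Tendsto (fun k : ℕ => ∫ y, f y ∂μ + η2 + (-Real.log c) * (1 / ((k : ℝ) + 1))) atTop
      (𝓝 (∫ y, f y ∂μ + η2 + (-Real.log c) * 0)) :=
    tendsto_const_nhds.add (tendsto_one_div_add_atTop_nhds_zero_nat.const_mul _)
  simpa using ge_of_tendsto' hlim hk

end Crest.Agent.N221.En
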