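import Crest.Agent.N221.En.Defs

/-! # Row 221, abstract ergodic layer: leaf K2 (helper66) -/

set_option autoImplicit false

open MeasureTheory Set Filter Topology
open Crest.GeometryTopology.Submanifold

noncomputable section

namespace Crest.Agent.N221.En

namespace K2

variable {Y : Type} [MetricSpace Y] [CompactSpace Y]

theorem modulus {T : Y → Y} (hT : Continuous T) {ε : ℝ} (hε : 0 < ε) (m : ℕ) :
    ∃ δ > 0, ∀ p q : Y, dist p q < δ → ∀ i ≤ m, dist (T^[i] p) (T^[i] q) < ε := by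
  have h1 : ∀ i : ℕ, ∃ δ > 0, ∀ p q : Y, dist p q < δ → dist (T^[i] p) (T^[i] q) < ε := fun i =>
    let ⟨δ, hδ, h⟩ := Metric.uniformContinuous_iff.1
      (CompactSpace.uniformContinuous_of_continuous (hT.iterate i)) ε hε
    ⟨δ, hδ, fun _ _ hpq => h hpq⟩
  induction m with
  | zero =>
    obtain ⟨δ, hδ, h⟩ := h1 0
    exact ⟨δ, hδ, fun p q hpq i hi => by rw [Nat.le_zero.1 hi]; exact h p q hpq⟩
  | succ m ih =>
    obtain ⟨δ, hδ, h⟩ := ih
    obtain ⟨δ', hδ', h'⟩ := h1 (m + 1)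
    refine ⟨min δ δ', lt_min hδ hδ', fun p q hpq i hi => ?_⟩
    rcases hi.eq_or_lt with rfl | hi
    · exact h' p q (hpq.trans_le (min_le_right _ _))
    · exact h p q (hpq.trans_le (min_le_left _ _)) i (by omega)

variable [MeasurableSpace Y] [BorelSpace Y]

theorem part (μ : Measure Y) {δ : ℝ} (hδ : 0 < δ) : ∃ P : Finset (Set Y), IsPartitionMod μ P ∧
    ∀ A ∈ P, ∀ x ∈ A, ∀ y ∈ A, dist x y < δ := by
  classical
  obtain ⟨t, -, ht, hc⟩ := finite_cover_balls_of_compact (isCompact_univ (X := Y)) (half_pos hδ)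
  lift t to Finset Y using ht
  let A : Finset Y → Set Y := fun s => ⋂ c ∈ t, {y | dist y c < δ / 2 ↔ c ∈ s}
  have hA : ∀ s y, y ∈ A s ↔ ∀ c ∈ t, (dist y c < δ / 2 ↔ c ∈ s) := fun s y => by simp [A]
  refine ⟨t.powerset.image A, ⟨?_, ?_, ?_⟩, ?_⟩
  · intro B hB
    obtain ⟨s, -, rfl⟩ := Finset.mem_image.1 hB
    refine Finset.measurableSet_biInter t fun c _ => ?_
    have hm : MeasurableSet {y : Y | dist y c < δ / 2} := Metric.isOpen_ball.measurableSet
    by_cases h : c ∈ s
    · simpa [h] using hm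
    · simpa [h, compl_ofPred] using hm.compl
  · intro B hB B' hB' hne
    obtain ⟨s, -, rfl⟩ := Finset.mem_image.1 hB
    obtain ⟨s', -, rfl⟩ := Finset.mem_image.1 hB'
    refine disjoint_left.2 fun y hy hy' => hne ?_
    ext z
    rw [hA] at hy hy'
    rw [hA, hA]
    exact forall₂_congr fun c hc => by rw [← hy c hc, ← hy' c hc]
  · have : (⋃ B ∈ t.powerset.image A, B) = univ := by
      refine eq_univ_of_forall fun y => ?_
      refine mem_iUnion₂.2 ⟨A (t.filter fun c => dist y c < δ / 2),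
        Finset.mem_image_of_mem _ (Finset.mem_powerset.2 (Finset.filter_subset _ _)), ?_⟩
      rw [hA]
      intro c hc
      simp [hc]
    rw [this, compl_univ, measure_empty]
  · intro B hB x hx y hy
    obtain ⟨s, -, rfl⟩ := Finset.mem_image.1 hB
    rw [hA] at hx hy
    obtain ⟨c, hct, hxc⟩ := mem_iUnion₂.1 (hc (mem_univ x))
    have h1 : dist x c < δ / 2 := hxc
    have h2 := (hy c hct).2 ((hx c hct).1 h1)
    linarith [dist_triangle_right x y c]

omit [CompactSpace Y] [MeasurableSpace Y] [BorelSpace Y] in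
theorem cont_birk {T : Y → Y} {f : Y → ℝ} (hT : Continuous T) (hf : Continuous f) (n : ℕ) :
    Continuous (birkhoffSum T f n) :=
  continuous_finsetSum _ fun i _ => hf.comp (hT.iterate i)

theorem intg (μ : Measure Y) [IsFiniteMeasure μ] {g : Y → ℝ} (hg : Continuous g) :
    Integrable g μ :=
  hg.integrable_of_hasCompactSupport (HasCompactSupport.of_compactSpace g)

theorem int_birk (μ : Measure Y) [IsFiniteMeasure μ] {T : Y → Y} {f : Y → ℝ} (hT : Continuous T)
    (hμ : MeasurePreserving T μ μ) (hf : Continuous f) (n : ℕ) :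
    ∫ y, birkhoffSum T f n y ∂μ = n * ∫ y, f y ∂μ := by
  unfold birkhoffSum
  rw [integral_finsetSum (f := fun i y => f (T^[i] y)) _ fun i _ =>
    intg μ (hf.comp (hT.iterate i))]
  have : ∀ i, ∫ y, f (T^[i] y) ∂μ = ∫ y, f y ∂μ := fun i => by
    rw [← integral_map (hμ.iterate i).measurable.aemeasurable hf.aestronglyMeasurable,
      (hμ.iterate i).map_eq]
  simp [this]

end K2

open K2 in
theorem sK2 (h0 : StmtK0) : StmtK2 := by
  intro Y _ _ _ _ μ _ T f hT hμ hf ⟨ε, hε, C, hC, hup⟩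
  obtain ⟨m, hm⟩ : ∃ m : ℕ, ∫ y, f y ∂μ ≤ 0 ∨ Real.log C ≤ m * ∫ y, f y ∂μ := by
    rcases le_or_gt (∫ y, f y ∂μ) 0 with h | h
    · exact ⟨0, .inl h⟩
    · obtain ⟨m, hm⟩ := exists_nat_ge (Real.log C / ∫ y, f y ∂μ)
      exact ⟨m, .inr ((div_le_iff₀ h).1 hm)⟩
  obtain ⟨δ, hδ, hmod⟩ := modulus hT hε m
  obtain ⟨P, hP, hd⟩ := part μ hδ
  refine ⟨P, hP, le_ciInf fun k => ?_⟩
  obtain ⟨ha, hb, hc⟩ := h0 Y μ T P (k + 1)
  have hk : (0 : ℝ) < k + 1 := by positivity
  rcases hm with hm | hm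
  · exact hm.trans (div_nonneg (hc inferInstance) hk.le)
  obtain ⟨hme, -, hs⟩ := hb inferInstance hμ hP
  have hS := cont_birk hT hf (k + 1 + m)
  have hg : Integrable (fun y => birkhoffSum T f (k + 1 + m) y - Real.log C) μ :=
    intg μ (hS.sub continuous_const)
  rw [le_div_iff₀ hk, (ha hP.2.1).2]
  calc (∫ y, f y ∂μ) * (k + 1)
      ≤ ∫ y, (birkhoffSum T f (k + 1 + m) y - Real.log C) ∂μ := by
        rw [integral_sub (intg μ hS) (integrable_const _), int_birk μ hT hμ hf]
        simp only [integral_const, probReal_univ, smul_eq_mul, one_mul]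
        push_cast
        linarith
    _ = _ := (hs _ hg).symm
    _ ≤ _ := Finset.sum_le_sum fun w _ => ?_
  rcases (measureReal_nonneg (μ := μ) (s := cyl T P (k + 1) w)).eq_or_lt with hz | hz
  · rw [← hz, Real.negMulLog_zero,
      setIntegral_measure_zero _ ((measureReal_eq_zero_iff (by finiteness)).1 hz.symm)]
  have hb : ∀ x ∈ cyl T P (k + 1) w, birkhoffSum T f (k + 1 + m) x - Real.log C ≤
      -Real.log (μ.real (cyl T P (k + 1) w)) := by
    intro x hx
    have hsub : cyl T P (k + 1) w ⊆ bB T (k + 1 + m) ε x := by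
      intro y hy i hi
      obtain ⟨j, l, hj, hl, rfl⟩ : ∃ j l, j ≤ m ∧ l < k + 1 ∧ i = j + l :=
        ⟨i - min i k, min i k, by omega, by omega, by omega⟩
      rw [Function.iterate_add_apply, Function.iterate_add_apply]
      exact hmod _ _ (hd _ (w ⟨l, hl⟩).2 _ (mem_iInter.1 hy ⟨l, hl⟩) _ (mem_iInter.1 hx ⟨l, hl⟩))
        j hj
    have h1 := Real.log_le_log hz ((measureReal_mono hsub).trans (hup x _))
    rw [Real.log_mul hC.ne' (Real.exp_pos _).ne', Real.log_exp] at h1
    linarith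
  refine (setIntegral_mono_on hg.integrableOn (integrable_const _).integrableOn (hme w) hb).trans_eq
    ?_
  rw [setIntegral_const, smul_eq_mul, Real.negMulLog]
  ring

end Crest.Agent.N221.En
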