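import Crest.Agent.N221.En.Defs

/-!
# Row 221, ergodic layer: separated and spanning sets (helper43)
-/

set_option autoImplicit false

open Set Filter Topology

namespace Crest.Agent.N221.En

namespace S0

variable {Y : Type} [MetricSpace Y] {T : Y → Y} {n : ℕ} {ε ε' : ℝ} {x y z : Y}

theorem symm (h : y ∈ bB T n ε x) : x ∈ bB T n ε y := fun i hi => dist_comm (T^[i] y) _ ▸ h i hi

theorem tri (h : y ∈ bB T n ε x) (h' : z ∈ bB T n ε' y) : z ∈ bB T n (ε + ε') x := fun i hi =>
  (dist_triangle _ (T^[i] y) _).trans_lt (by linarith [h i hi, h' i hi])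

theorem self (h : 0 < ε) : x ∈ bB T n ε x := fun i _ => by simpa using h

theorem isOpen (hT : Continuous T) : IsOpen (bB T n ε z) := by
  have : bB T n ε z = ⋂ i ∈ Finset.range n, T^[i] ⁻¹' Metric.ball (T^[i] z) ε := by
    ext y; simp [bB]
  rw [this]
  exact isOpen_biInter_finset fun i _ => Metric.isOpen_ball.preimage (hT.iterate i)

/-- a ball of radius `ε / 2` holds at most one point of an `ε`-separated set -/
theorem card_le {F s : Finset Y} (hF : Sep T n ε F) (hs : ∀ y, ∃ x ∈ s, y ∈ bB T n (ε / 2) x) :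
    F.card ≤ s.card := by
  choose c hc hc' using hs
  refine Finset.card_le_card_of_injOn c (fun y _ => hc y) fun a ha b hb hab => ?_
  by_contra hne
  have := tri (symm (hc' a)) (hab ▸ hc' b)
  rw [add_halves] at this
  exact hF a ha b hb hne this

theorem exists_span [CompactSpace Y] (hT : Continuous T) (n : ℕ) (h : 0 < ε) :
    ∃ s : Finset Y, ∀ y, ∃ x ∈ s, y ∈ bB T n ε x := by
  obtain ⟨s, hs⟩ := isCompact_univ.elim_finite_subcover (fun x => bB T n ε x)
    (fun _ => isOpen hT) fun y _ => mem_iUnion.2 ⟨y, self h⟩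
  exact ⟨s, fun y => by simpa using hs (mem_univ y)⟩

end S0

open S0

theorem sS0 : StmtS0 := by
  classical
  intro Y _ _ T hT
  refine ⟨fun _ _ _ => isOpen hT, fun _ _ _ _ => symm, fun _ _ _ _ _ _ => tri, fun n ε hε => ?_⟩
  obtain ⟨s, hs⟩ := exists_span hT n (half_pos hε)
  have h0 : Sep T n ε ∅ := fun x hx => absurd hx (Finset.notMem_empty x)
  obtain ⟨F, hF, hk⟩ : ∃ F : Finset Y, Sep T n ε F ∧ F.card = Nat.findGreatest
      (fun k => ∃ F : Finset Y, Sep T n ε F ∧ F.card = k) s.card :=
    Nat.findGreatest_spec (P := fun k => ∃ F : Finset Y, Sep T n ε F ∧ F.card = k)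
      (Nat.zero_le _) ⟨∅, h0, rfl⟩
  have hmax : ∀ G : Finset Y, Sep T n ε G → G.card ≤ F.card := fun G hG =>
    hk ▸ Nat.le_findGreatest (card_le hG hs) ⟨G, hG, rfl⟩
  refine ⟨F, hF, fun y => ?_, hmax⟩
  by_contra hy
  push Not at hy
  have hyF : y ∉ F := fun h => hy y h (self hε)
  have : Sep T n ε (insert y F) := by
    intro a ha b hb hab
    rcases Finset.mem_insert.1 ha with rfl | ha' <;> rcases Finset.mem_insert.1 hb with rfl | hb'
    · exact absurd rfl hab
    · exact fun h => hy b hb' (symm h)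
    · exact hy a ha'
    · exact hF a ha' b hb' hab
  have := hmax _ this
  rw [Finset.card_insert_of_notMem hyF] at this
  omega

end Crest.Agent.N221.En
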