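import Crest.Agent.N221.En.Defs

/-! # Row 221, abstract ergodic layer: leaf T3 (helper66) -/

set_option autoImplicit false

open MeasureTheory Set Filter Topology

noncomputable section

namespace Crest.Agent.N221.En

namespace T3

variable {Y : Type} [MetricSpace Y] [CompactSpace Y] [MeasurableSpace Y] [BorelSpace Y]

theorem intg (μ : Measure Y) [IsFiniteMeasure μ] {g : Y → ℝ} (hg : Continuous g) :
    Integrable g μ :=
  hg.integrable_of_hasCompactSupport (HasCompactSupport.of_compactSpace g)

theorem int_birk (μ : Measure Y) [IsFiniteMeasure μ] {T : Y → Y} {f : Y → ℝ} (hT : Continuous T)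
    (hμ : MeasurePreserving T μ μ) (hf : Continuous f) (n : ℕ) :
    ∫ y, birkhoffSum T f n y ∂μ = n * ∫ y, f y ∂μ := by
  unfold birkhoffSum
  rw [integral_finsetSum (f := fun i y => f (T^[i] y)) _ fun i _ =>
    intg μ (hf.comp (hT.iterate i))]
  have : ∀ i, ∫ y, f (T^[i] y) ∂μ = ∫ y, f y ∂μ := fun i => by
    rw [← integral_map (hμ.iterate i).measurable.aemeasurable hf.aestronglyMeasurable,
      (hμ.iterate i).map_eq]
  simp [this]

theorem not_bdd {d K : ℝ} (hd : 0 < d) (h : ∀ n : ℕ, d * n ≤ K) : False := by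
  obtain ⟨n, hn⟩ := exists_nat_gt (K / d)
  rw [div_lt_iff₀ hd] at hn
  linarith [h n]

end T3

open T3 in
theorem sT3 (hS : StmtS0) (hC : StmtC) : StmtT3 := by
  intro Y _ _ _ _ μ _ T f hT hμ hf ⟨ε, hε, C₀, hC₀, hup⟩ hlow h C hb
  obtain ⟨hop, hsy, htr, hmax⟩ := hS Y T hT
  refine ⟨?_, le_antisymm ((hC Y T hT h).2 fun e he η hη => ?_) (not_lt.1 fun hlt => ?_)⟩
  · by_contra hne
    refine not_bdd (abs_pos.2 (sub_ne_zero.2 hne)) (K := C) fun n => ?_
    have hc : Continuous (birkhoffSum T f n) :=
      continuous_finsetSum _ fun i _ => hf.comp (hT.iterate i)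
    have h1 : ∫ y, (birkhoffSum T f n y - h * n) ∂μ = ((∫ y, f y ∂μ) - h) * n := by
      rw [integral_sub (intg μ hc) (integrable_const _), int_birk μ hT hμ hf]
      simp only [integral_const, probReal_univ, smul_eq_mul, one_mul]
      ring
    have h2 := norm_integral_le_of_norm_le_const (μ := μ) (C := C)
      (f := fun y => birkhoffSum T f n y - h * n) (.of_forall fun y => hb y n)
    rwa [h1, probReal_univ, mul_one, Real.norm_eq_abs, abs_mul, Nat.abs_cast] at h2
  · obtain ⟨c, hc, hl⟩ := hlow (e / 2) (half_pos he)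
    refine ⟨Real.exp C / c, fun n F hF => ?_⟩
    have h1 : ∑ x ∈ F, μ.real (bB T n (e / 2) x) ≤ 1 := by
      rw [← probReal_univ (μ := μ)]
      refine sum_measureReal_le_measureReal_univ (fun x _ => (hop _ _ _).measurableSet) ?_
      intro x hx x' hx' hne
      refine disjoint_left.2 fun y hy hy' => hF x hx x' hx' hne ?_
      simpa using htr n _ _ x y x' hy (hsy n _ x' y hy')
    have h2 : F.card * (c * Real.exp (-(h * n + C))) ≤ 1 := by
      refine le_trans ?_ h1
      rw [← nsmul_eq_mul]
      refine Finset.card_nsmul_le_sum _ _ _ fun x _ => le_trans ?_ (hl x n)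
      gcongr
      linarith [(abs_le.1 (hb x n)).2]
    have h3 : Real.exp (-(h * n + C)) * (Real.exp C * Real.exp (h * n)) = 1 := by
      rw [← Real.exp_add, ← Real.exp_add, ← Real.exp_zero]; congr 1; ring
    calc (F.card : ℝ)
        = F.card * (c * Real.exp (-(h * n + C))) * (Real.exp C / c * Real.exp (h * n)) := by
          field_simp
          linear_combination (-F.card) * h3
      _ ≤ 1 * (Real.exp C / c * Real.exp ((h + η) * n)) := by
          gcongr
          linarith
      _ = _ := one_mul _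
  · obtain ⟨h', h1, h2⟩ := EReal.lt_iff_exists_real_btwn.1 hlt
    have h3 : 0 < (h - h') / 2 := half_pos (sub_pos.2 (EReal.coe_lt_coe_iff.1 h2))
    obtain ⟨C₁, hC₁⟩ := (hC Y T hT h').1 h1.le ε hε _ h3
    refine not_bdd h3 (K := C₁ * C₀ * Real.exp C) fun n => ?_
    obtain ⟨F, hF, hsp, -⟩ := hmax n ε hε
    have h4 : (1 : ℝ) ≤ ∑ x ∈ F, μ.real (bB T n ε x) := by
      rw [← probReal_univ (μ := μ)]
      refine le_trans (measureReal_mono (fun y _ => ?_) (measure_ne_top _ _))
        (measureReal_biUnion_finset_le F _)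
      obtain ⟨x, hx, hy⟩ := hsp y
      exact mem_iUnion₂.2 ⟨x, hx, hy⟩
    have h5 : (1 : ℝ) ≤ F.card * (C₀ * Real.exp (C - h * n)) := by
      refine h4.trans ?_
      rw [← nsmul_eq_mul]
      refine Finset.sum_le_card_nsmul _ _ _ fun x _ => (hup x n).trans ?_
      gcongr
      linarith [(abs_le.1 (hb x n)).1]
    have h6 : Real.exp ((h - h') / 2 * n) * Real.exp ((h' + (h - h') / 2) * n) *
        Real.exp (C - h * n) = Real.exp C := by
      rw [← Real.exp_add, ← Real.exp_add]; congr 1; ring
    calc (h - h') / 2 * n ≤ Real.exp ((h - h') / 2 * n) * 1 := by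
          linarith [Real.add_one_le_exp ((h - h') / 2 * n)]
      _ ≤ Real.exp ((h - h') / 2 * n) * (C₁ * Real.exp ((h' + (h - h') / 2) * n) *
          (C₀ * Real.exp (C - h * n))) := by
          gcongr
          exact h5.trans (by gcongr; exact hC₁ n F hF)
      _ = _ := by rw [← h6]; ring

end Crest.Agent.N221.En
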