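import Crest.Agent.N221.En.K0

/-! # Row 221, ergodic layer: `Tr`, transfer of `ksEntropy` to the subtype (helper36) -/

set_option autoImplicit false

open MeasureTheory Set Filter Topology
open Crest.GeometryTopology.Submanifold

noncomputable section

namespace Crest.Agent.N221.En

namespace Tr

open Classical

variable {E : Type} {X : Set E}

/-- the trace of a family on `X` -/
def tr (X : Set E) (P : Finset (Set E)) : Finset (Set X) := P.image fun A => Subtype.val ⁻¹' A

theorem pre_cyl {T : E → E} (hT : MapsTo T X X) {P : Finset (Set E)} {k : ℕ} (w : Fin k → P)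
    (w' : Fin k → tr X P) (h : ∀ i, Subtype.val ⁻¹' (w i : Set E) = (w' i : Set X)) :
    Subtype.val ⁻¹' cyl T P k w = cyl (hT.restrict T X X) (tr X P) k w' := by
  ext y
  simp only [cyl, mem_preimage, mem_iInter, ← h, MapsTo.coe_iterate_restrict]

theorem join_tr {T : E → E} (hT : MapsTo T X X) (P : Finset (Set E)) (k : ℕ) :
    iteratedJoin (hT.restrict T X X) (tr X P) k = tr X (iteratedJoin T P k) := by
  ext A
  rw [K0.mem_join]
  constructor
  · rintro ⟨w', rfl⟩
    choose B hB h using fun i => Finset.mem_image.1 (w' i).2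
    exact Finset.mem_image.2 ⟨_, K0.mem_join.2 ⟨fun i => ⟨B i, hB i⟩, rfl⟩, pre_cyl hT _ _ h⟩
  · intro h
    obtain ⟨B, hB, rfl⟩ := Finset.mem_image.1 h
    obtain ⟨w, rfl⟩ := K0.mem_join.1 hB
    exact ⟨fun i => ⟨_, Finset.mem_image_of_mem _ (w i).2⟩, (pre_cyl hT _ _ fun _ => rfl).symm⟩

theorem union_tr (P : Finset (Set E)) :
    (⋃ A ∈ tr X P, A)ᶜ = Subtype.val ⁻¹' (⋃ A ∈ P, A)ᶜ := by
  rw [tr, Finset.set_biUnion_finset_image, preimage_compl, preimage_iUnion₂]

variable [MeasurableSpace E] {μ : Measure E}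

theorem meas_pre (hX : MeasurableSet X) (h0 : μ Xᶜ = 0) (A : Set E) :
    μ.comap (Subtype.val : X → E) (Subtype.val ⁻¹' A) = μ A := by
  rw [(MeasurableEmbedding.subtype_coe hX).comap_apply, Subtype.image_preimage_coe, inter_comm,
    measure_inter_conull h0]

theorem ent_tr (hX : MeasurableSet X) (h0 : μ Xᶜ = 0) {Q : Finset (Set E)}
    (hQ : ∀ A ∈ Q, ∀ B ∈ Q, A ≠ B → Disjoint A B) :
    partitionEntropy (μ.comap (Subtype.val : X → E)) (tr X Q) = partitionEntropy μ Q := by
  rw [K0.ent_eq, K0.ent_eq, tr, Finset.sum_image_of_disjoint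
    (g := fun A => Real.negMulLog ((μ.comap (Subtype.val : X → E)).real A)) (by simp)
    fun A hA B hB h => (hQ A hA B hB h).preimage _]
  exact Finset.sum_congr rfl fun A _ => by rw [Measure.real, meas_pre hX h0, Measure.real]

theorem rate_tr (hX : MeasurableSet X) (h0 : μ Xᶜ = 0) {T : E → E} (hT : MapsTo T X X)
    {P : Finset (Set E)} (hP : ∀ A ∈ P, ∀ B ∈ P, A ≠ B → Disjoint A B) :
    rate (μ.comap (Subtype.val : X → E)) (hT.restrict T X X) (tr X P) = rate μ T P := by
  refine iInf_congr fun k => ?_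
  rw [join_tr, ent_tr hX h0]
  intro A hA B hB h
  obtain ⟨w, rfl⟩ := K0.mem_join.1 hA
  obtain ⟨w', rfl⟩ := K0.mem_join.1 hB
  exact K0.disj T _ hP w w' fun e => h (by rw [e])

theorem part_tr (hX : MeasurableSet X) (h0 : μ Xᶜ = 0) {P : Finset (Set E)}
    (hP : IsPartitionMod μ P) : IsPartitionMod (μ.comap (Subtype.val : X → E)) (tr X P) := by
  refine ⟨fun A hA => ?_, fun A hA B hB h => ?_, by rw [union_tr, meas_pre hX h0, hP.2.2]⟩
  · obtain ⟨B, hB, rfl⟩ := Finset.mem_image.1 hA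
    exact measurable_subtype_coe (hP.1 B hB)
  · obtain ⟨A, hA', rfl⟩ := Finset.mem_image.1 hA
    obtain ⟨B, hB', rfl⟩ := Finset.mem_image.1 hB
    exact (hP.2.1 A hA' B hB' fun e => h (by rw [e])).preimage _

theorem exists_tr (hX : MeasurableSet X) (h0 : μ Xᶜ = 0) {Q : Finset (Set X)}
    (hQ : IsPartitionMod (μ.comap (Subtype.val : X → E)) Q) :
    ∃ P, IsPartitionMod μ P ∧ tr X P = Q := by
  have e : tr X (Q.image fun A => Subtype.val '' A) = Q := by
    rw [tr, Finset.image_image]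
    exact (Finset.image_congr fun A _ => preimage_image_eq A Subtype.val_injective).trans
      Finset.image_id
  refine ⟨_, ⟨fun A hA => ?_, fun A hA B hB h => ?_, ?_⟩, e⟩
  · obtain ⟨B, hB, rfl⟩ := Finset.mem_image.1 hA
    exact (MeasurableEmbedding.subtype_coe hX).measurableSet_image.2 (hQ.1 B hB)
  · obtain ⟨A, hA', rfl⟩ := Finset.mem_image.1 hA
    obtain ⟨B, hB', rfl⟩ := Finset.mem_image.1 hB
    exact disjoint_image_of_injective Subtype.val_injective
      (hQ.2.1 A hA' B hB' fun e => h (by rw [e]))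
  · rw [← meas_pre hX h0, ← union_tr, e, hQ.2.2]

end Tr

open Tr in
theorem sTr : StmtTr := by
  intro E _ X μ T hT hX h0
  unfold ksEntropy
  congr 1
  ext h
  constructor
  · rintro ⟨P, hP, rfl⟩
    exact ⟨tr X P, part_tr hX h0 hP, (rate_tr hX h0 hT hP.2.1).symm⟩
  · rintro ⟨Q, hQ, rfl⟩
    obtain ⟨P, hP, rfl⟩ := exists_tr hX h0 hQ
    exact ⟨P, hP, rate_tr hX h0 hT hP.2.1⟩

end Crest.Agent.N221.En
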