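import Crest.Agent.N221.En.Main
import Crest.Agent.N221.En.K0
import Crest.Agent.N221.En.K1
import Crest.Agent.N221.En.K2
import Crest.Agent.N221.En.S0
import Crest.Agent.N221.En.C
import Crest.Agent.N221.En.T3
import Crest.Agent.N221.En.G1
import Crest.Agent.N221.En.G2
import Crest.Agent.N221.En.G3
import Crest.Agent.N221.En.F1
import Crest.Agent.N221.En.F2
import Crest.Agent.N221.En.F3
import Crest.Agent.N221.En.F4
import Crest.Agent.N221.En.F5
import Crest.Agent.N221.En.Tr

/-! # Row 221, abstract ergodic layer: everything wired (helper33) -/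

set_option autoImplicit false

namespace Crest.Agent.N221.En

theorem mainT : StmtMainT :=
  sMainT (sK1 sK0 sS0) (sK2 sK0) (sC sS0) (sT3 sS0 (sC sS0)) (sG1 sS0) (sG2 sS0) sG3 sF1 sF2 sF3
    sF4 sF5

theorem main : StmtMain := sMain mainT sTr

end Crest.Agent.N221.En
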