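import Crest.Prelude.Def_SubmanifoldDynamics

/-!
# Row 221 (S0342): the ABSTRACT ERGODIC LAYER `N221/En` (owner helper33)

No geometry.  Input from the geometric side (ambient form, `IsSys`, `VolUp`, `VolLow`, `LPS`):
a flow `Φ` on a compact connected invariant set `X ⊆ E`, an invariant probability `μ` carried by
`X`, a continuous `τ` (= tr U^u), the two-sided VOLUME LEMMA for Bowen balls and the LOCAL PRODUCT
STRUCTURE.  Output (`StmtMain`):

* `ksEntropy μ (Φ 1) = ∫ τ`;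
* `ksEntropy = coverEntropy`  iff  `τ - h` is a CONTINUOUS coboundary of the flow (`Cob`);
* `τ` flow invariant (locally symmetric case) implies equality;
* dense set of points whose forward and backward orbits are dense.

Everything is first proved on a compact metric space `Y` (a type) for a continuous map `T`
(section Discrete) or a Mathlib `Flow ℝ Y` (section Flow), then transferred (`StmtTr`, `StmtMain`).
Leaves: one file `N221/En/<Leaf>.lean`, importing only this file, with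
`theorem s<Leaf> (hypothesis Stmts as arguments) : Stmt<Leaf>`; helper lemmas in a sub-namespace.
-/

set_option autoImplicit false

open MeasureTheory Set Filter Topology
open Crest.GeometryTopology.Submanifold

noncomputable section

namespace Crest.Agent.N221.En

/-! ## Words and partitions (any measurable space) -/

/-- The cylinder of the word `w` over the finite family `P`. -/
def cyl {Y : Type} (T : Y → Y) (P : Finset (Set Y)) (k : ℕ) (w : Fin k → P) : Set Y :=
  ⋂ i : Fin k, (T^[(i : ℕ)]) ⁻¹' (w i : Set Y)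

/-- The entropy rate of the family `P` as it appears in `ksEntropy`. -/
def rate {Y : Type} [MeasurableSpace Y] (μ : Measure Y) (T : Y → Y) (P : Finset (Set Y)) : ℝ :=
  ⨅ k : ℕ, partitionEntropy μ (iteratedJoin T P (k + 1)) / (k + 1)

/-- **K0** (word form of the entropy).  (a) For ANY map `T` and a pairwise disjoint family `P`:
distinct words have disjoint cylinders and the entropy of the join is the sum over WORDS (the
`Finset.image` only merges empty cylinders, which contribute `negMulLog 0 = 0`; use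
`Finset.sum_image_of_ne_zero`/`Finset.sum_image_of_disjoint`-type lemma).  (b) If `T` preserves the
probability `μ` and `P` is a partition mod `μ`, the cylinders are measurable and cover `μ`-a.e.
point (a.e. `y` has `T^[i] y ∈ ⋃ P` for every `i`, `MeasurePreserving.iterate`), hence for every
integrable `g`, `∑ w, ∫_{cyl w} g = ∫ g`.  (c) partition entropies of probability measures are
nonnegative (`Real.negMulLog_nonneg`), so the `⨅` in `rate` is bounded below by `0`. -/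
def StmtK0 : Prop :=
  ∀ (Y : Type) [MeasurableSpace Y] (μ : Measure Y) (T : Y → Y) (P : Finset (Set Y)) (k : ℕ),
    ((∀ A ∈ P, ∀ B ∈ P, A ≠ B → Disjoint A B) →
      (∀ w w' : Fin k → P, w ≠ w' → Disjoint (cyl T P k w) (cyl T P k w')) ∧
      partitionEntropy μ (iteratedJoin T P k) =
        ∑ w : Fin k → P, Real.negMulLog (μ.real (cyl T P k w))) ∧
    (IsProbabilityMeasure μ → MeasurePreserving T μ μ → IsPartitionMod μ P →
      (∀ w : Fin k → P, MeasurableSet (cyl T P k w)) ∧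
      (∀ᵐ y ∂μ, ∃ w : Fin k → P, y ∈ cyl T P k w) ∧
      ∀ g : Y → ℝ, Integrable g μ → ∑ w : Fin k → P, ∫ y in cyl T P k w, g y ∂μ = ∫ y, g y ∂μ) ∧
    (IsProbabilityMeasure μ → 0 ≤ partitionEntropy μ (iteratedJoin T P k))

/-! ## Discrete time: a continuous map of a compact metric space -/

section Discrete

variable {Y : Type} [MetricSpace Y]

/-- The (open) Bowen ball of length `n` and radius `ε` around `z`. -/
def bB (T : Y → Y) (n : ℕ) (ε : ℝ) (z : Y) : Set Y :=
  {y | ∀ i < n, dist (T^[i] y) (T^[i] z) < ε}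

/-- `F` is `(n, ε)`-separated. -/
def Sep (T : Y → Y) (n : ℕ) (ε : ℝ) (F : Finset Y) : Prop :=
  ∀ x ∈ F, ∀ y ∈ F, x ≠ y → y ∉ bB T n ε x

/-- Separated sets grow at most like `e^{(h+η) n}` for every `η > 0` (= `coverEntropy ≤ h`). -/
def SubExp (T : Y → Y) (h : ℝ) : Prop :=
  ∀ ε > 0, ∀ η > 0, ∃ C : ℝ, ∀ (n : ℕ) (F : Finset Y), Sep T n ε F →
    (F.card : ℝ) ≤ C * Real.exp ((h + η) * n)

/-- Separated sets grow at most like `C e^{h n}`. -/
def Exact (T : Y → Y) (h : ℝ) : Prop :=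
  ∀ ε > 0, ∃ C : ℝ, ∀ (n : ℕ) (F : Finset Y), Sep T n ε F → (F.card : ℝ) ≤ C * Real.exp (h * n)

/-- Discrete gluing: separated sets multiply, with a bounded gap and a loss of scale. -/
def DGlue (T : Y → Y) : Prop :=
  ∀ ε > 0, ∃ ε' > 0, ∃ (k : ℕ) (c : ℝ), 0 < c ∧ ∀ (n m : ℕ) (F G : Finset Y),
    Sep T n ε F → Sep T m ε G →
      ∃ H : Finset Y, Sep T (n + m + k) ε' H ∧ c * F.card * G.card ≤ H.card

variable [MeasurableSpace Y]

/-- Upper volume lemma (one scale). -/
def DUp (μ : Measure Y) (T : Y → Y) (f : Y → ℝ) : Prop :=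
  ∃ ε > 0, ∃ C > 0, ∀ (z : Y) (n : ℕ),
    μ.real (bB T n ε z) ≤ C * Real.exp (-birkhoffSum T f n z)

/-- Lower volume lemma (every scale). -/
def DLow (μ : Measure Y) (T : Y → Y) (f : Y → ℝ) : Prop :=
  ∀ ε > 0, ∃ c > 0, ∀ (z : Y) (n : ℕ),
    c * Real.exp (-birkhoffSum T f n z) ≤ μ.real (bB T n ε z)

end Discrete

/-- **S0** (separated/spanning toolbox).  On a compact metric space with `T` continuous: Bowen
balls are open; membership is symmetric; triangle inequality; for `ε > 0` the cardinalities of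
`(n, ε)`-separated sets are bounded (cover `Y` by finitely many open `bB T n (ε/2) z`: each holds at
most one point of `F`), hence there is a separated set of MAXIMAL cardinality, and it spans
(otherwise add the point). -/
def StmtS0 : Prop :=
  ∀ (Y : Type) [MetricSpace Y] [CompactSpace Y] (T : Y → Y), Continuous T →
    (∀ n ε z, IsOpen (bB T n ε z)) ∧
    (∀ n ε x y, y ∈ bB T n ε x → x ∈ bB T n ε y) ∧
    (∀ n ε ε' x y z, y ∈ bB T n ε x → z ∈ bB T n ε' y → z ∈ bB T n (ε + ε') x) ∧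
    ∀ (n : ℕ) (ε : ℝ), 0 < ε → ∃ F : Finset Y, Sep T n ε F ∧ (∀ y, ∃ x ∈ F, y ∈ bB T n ε x) ∧
      ∀ G : Finset Y, Sep T n ε G → G.card ≤ F.card

/-- **K1** (`rate ≤ ∫ f` from the lower volume lemma; no conditional entropy, no powers of `T`).
Fix `η > 0`, `r = |P|` (`P` nonempty as `μ` is a probability), `lam` with `r e^{-lam} ≤ η`, compact
`K_A ⊆ A` (inner regularity, `MeasurableSet.exists_isCompact_diff_lt` or
`MeasurableSet.exists_isClosed_diff_lt`) with `G = ⋃ K_A`, `lam * μ Gᶜ ≤ η`, and `ε > 0` such that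
points of `K_A`, `K_B` (`A ≠ B`) are `≥ 2ε` apart; `c` from `DLow` at `ε`.  For length `n = k+1` put
`ψ x = -S_n f x - lam * #{i < n | T^[i] x ∉ G}` (bounded measurable, `∫ ψ = -n ∫ f - lam n μ Gᶜ`).
For every word `w` with `p_w = μ(cyl w) > 0` pick `x_w ∈ cyl w` with
`∫_{cyl w} ψ ≤ p_w ψ(x_w)` (`exists_setAverage_le`/`exists_le_setAverage`-type lemma).  Gibbs
(concavity of log / `log t ≤ t - 1`): `∑ p_w (ψ(x_w) - log p_w) ≤ log ∑ e^{ψ(x_w)}`.  Finally
`c ∑_w e^{ψ(x_w)} ≤ ∑_w e^{-lam |I_w|} μ(bB n ε x_w) = ∫ ∑_{w : y ∈ bB n ε x_w} e^{-lam |I_w|} dμ(y)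
≤ (1 + r e^{-lam})^n`, because for fixed `y` the map `w ↦ (i ↦ if T^[i] x_w ∈ G then none else
some (w i)) : Fin n → Option P` is injective on `{w | y ∈ bB n ε x_w}` and
`∑_{u : Fin n → Option P} ∏ i, (weight (u i)) = (1 + r e^{-lam})^n` (`Finset.prod_univ_sum`).
So `H_n / n ≤ ∫ f + 2η - log c / n`. -/
def StmtK1 : Prop :=
  ∀ (Y : Type) [MetricSpace Y] [CompactSpace Y] [MeasurableSpace Y] [BorelSpace Y]
    (μ : Measure Y) [IsProbabilityMeasure μ] (T : Y → Y) (f : Y → ℝ),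
    Continuous T → MeasurePreserving T μ μ → Continuous f → DLow μ T f →
    ∀ P : Finset (Set Y), IsPartitionMod μ P → rate μ T P ≤ ∫ y, f y ∂μ

/-- **K2** (some partition has `rate ≥ ∫ f`, from the upper volume lemma; no subadditivity).
If `∫ f ≤ 0` any partition works (`rate ≥ 0`, `le_ciInf`).  Otherwise choose `m` with
`log C ≤ m ∫ f` and `ε₁` with `dist p q < ε₁ → ∀ i ≤ m, dist (T^[i] p) (T^[i] q) < ε` (uniform
continuity), and a finite Borel partition `P` of `Y` by sets of diameter `< ε₁` (finite cover by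
balls of radius `ε₁/2`, `disjointed`, `Finset.image`).  For `n = k+1 ≥ 1` and `x ∈ cyl w`:
`cyl w ⊆ bB T (n+m) ε x`, so `S_{n+m} f x - log C ≤ -log μ(cyl w)`; integrate over `cyl w`, sum
(K0 b): `H_n ≥ (n+m) ∫ f - log C ≥ n ∫ f`. -/
def StmtK2 : Prop :=
  ∀ (Y : Type) [MetricSpace Y] [CompactSpace Y] [MeasurableSpace Y] [BorelSpace Y]
    (μ : Measure Y) [IsProbabilityMeasure μ] (T : Y → Y) (f : Y → ℝ),
    Continuous T → MeasurePreserving T μ μ → Continuous f → DUp μ T f →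
    ∃ P : Finset (Set Y), IsPartitionMod μ P ∧ ∫ y, f y ∂μ ≤ rate μ T P

/-- **C** (Mathlib's `coverEntropy` through separated sets).  Use
`Dynamics.coverEntropy_eq_iSup_basis` with `Metric.uniformity_basis_dist`
(`U ε = {p | dist p.1 p.2 < ε}`), `coverEntropyEntourage = expGrowthSup (coverMincard …)`.
(←) a maximal separated set is an `IsDynCoverOf` (S0), so `coverMincard ≤ C e^{(h+η) n}`,
`ENNReal`/`ExpGrowth.expGrowthSup_le_iff` or `expGrowthSup_le_of_eventually_le`.
(→) `coverEntropyEntourage T univ (U (ε/2)) < h + η` gives `coverMincard (U (ε/2)) n ≤ e^{(h+η) n}`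
eventually, it is finite for every `n`, and every ball of a cover of radius `ε/2` holds at most one
point of an `ε`-separated set. -/
def StmtC : Prop :=
  ∀ (Y : Type) [MetricSpace Y] [CompactSpace Y] (T : Y → Y), Continuous T →
    ∀ h : ℝ, Dynamics.coverEntropy T univ ≤ (h : EReal) ↔ SubExp T h

/-- **T3** (bounded cohomology to a constant gives both entropies).  `n ∫ f = ∫ S_n f ∈ h n ± C`
so `∫ f = h`.  `SubExp h` (even `Exact`): the balls `bB n (ε/2) x`, `x ∈ F`, are disjoint of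
measure `≥ c e^{-h n - C}`.  If `coverEntropy < h` pick a real `h'` in between
(`EReal.lt_iff_exists_real_btwn`), `SubExp h'`, `η = (h-h')/2`; a maximal separated set at the scale
of `DUp` spans, so `1 ≤ |F| C e^{-h n + C'} → 0`, contradiction. -/
def StmtT3 : Prop :=
  ∀ (Y : Type) [MetricSpace Y] [CompactSpace Y] [MeasurableSpace Y] [BorelSpace Y]
    (μ : Measure Y) [IsProbabilityMeasure μ] (T : Y → Y) (f : Y → ℝ),
    Continuous T → MeasurePreserving T μ μ → Continuous f → DUp μ T f → DLow μ T f →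
    ∀ h C : ℝ, (∀ (z : Y) (n : ℕ), |birkhoffSum T f n z - h * n| ≤ C) →
      ∫ y, f y ∂μ = h ∧ Dynamics.coverEntropy T univ = (h : EReal)

/-- **G1** (gluing turns subexponential error into a constant).  `ε₀, C₀` from `DUp`,
`e = ε₀/4`, `a n` = maximal cardinality of an `(n, e)`-separated set (S0), `a n ≥ 1`.
SCALE COMPARISON: for every `ε' > 0` there is `M > 0` with `|H| ≤ M * a n` for all `n` and all
`(n, ε')`-separated `H`.  (If `e ≤ ε'` then `H` is `e`-separated.  If `ε' ≤ e`: a maximal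
`e`-separated set spans; the points `y` of `H` inside one ball `bB n e x` have disjoint balls
`bB n (ε'/2) y` of measure `≥ c e^{-S_n f y}`, all inside `bB n ε₀ y₁` where `y₁` maximises
`S_n f` among them, so there are at most `C₀ / c` of them.)  With `DGlue` at `e`:
`c' a n * a m ≤ a (n+m+k)`; iterate: `c'^j (a n)^(j+1) ≤ a ((j+1) n + j k) ≤ C_η e^{(h+η)(…)}`;
take logs, divide by `j+1`, let `j → ∞`, then `η → 0`: `c' a n ≤ e^{h (n+k)}`.  Scale comparison
again for an arbitrary `ε`. -/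
def StmtG1 : Prop :=
  ∀ (Y : Type) [MetricSpace Y] [CompactSpace Y] [MeasurableSpace Y] [BorelSpace Y]
    (μ : Measure Y) [IsProbabilityMeasure μ] (T : Y → Y) (f : Y → ℝ),
    Continuous T → Continuous f → DUp μ T f → DLow μ T f → DGlue T →
    ∀ h : ℝ, SubExp T h → Exact T h

/-- **G2** (the rigidity step: `μ (Bowen ball) ≤ C e^{-h m}`).  `ε₀, C₀` from `DUp`, `ε = ε₀/2`,
`C₁` from `Exact` at `ε` (spanning sets of cardinality `≤ C₁ e^{h ℓ}` for every `ℓ`, S0).
Call `A` `p`-small if any two of its points are `(p, ε₀)`-close; then `∫⁻_A e^{S_p f} ≤ C₀`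
(`A ⊆ bB p ε₀ x` for `x ∈ A`).  Fix `D = bB m ε z`, `q = C₁ e^{-h m}`,
`F_0 = 1`, `F_{J+1} y = (1 + 1_D y) * F_J (T^[m] y)`, so `F_J = 2^{#{i < J | T^[i m] y ∈ D}}`.
Induction on `J`, for all `p, ℓ` and all measurable `p`-small `A`:
`∫⁻_A e^{S_{p+ℓ+Jm} f} F_J ∘ T^[p+ℓ] ≤ C₀ C₁ e^{h (ℓ + J m)} (1 + q)^J`
(`J = 0`: cover the gap `ℓ` by a spanning set, `A ∩ T^[p]⁻¹ B_j` is `(p+ℓ)`-small; step: the term
`1` is the hypothesis with gap `ℓ + m`, the term `1_D` is the hypothesis with gap `0` for the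
`(p+ℓ+m)`-small sets `A ∩ T^[p]⁻¹ B_j ∩ T^[p+ℓ]⁻¹ D`).  Take `p = ℓ = 0`, `A = univ`; Jensen
(`e^ψ ≥ e^c (1 + ψ - c)`, `c = ∫ ψ`) with `ψ = S_{Jm} f + log 2 ∑_{i<J} 1_D ∘ T^[i m]`,
`∫ ψ = J m ∫ f + J log 2 μ(D)` by invariance; `J → ∞`: `log 2 μ(D) ≤ q`; `DLow` at `ε`. -/
def StmtG2 : Prop :=
  ∀ (Y : Type) [MetricSpace Y] [CompactSpace Y] [MeasurableSpace Y] [BorelSpace Y]
    (μ : Measure Y) [IsProbabilityMeasure μ] (T : Y → Y) (f : Y → ℝ),
    Continuous T → MeasurePreserving T μ μ → Continuous f → DUp μ T f → DLow μ T f →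
    ∀ h : ℝ, Exact T h → h ≤ ∫ y, f y ∂μ →
      ∃ C : ℝ, ∀ (z : Y) (n : ℕ), h * n - C ≤ birkhoffSum T f n z

/-- **G3** (a one-sided bound is two-sided).  `b y = ⨅ n, (S_n f y - h n) ∈ [-C, 0]` is measurable
(`Measurable.iInf`), and `S_n f - h n + b ∘ T^[n] - b ≥ 0` pointwise with integral `≤ 0`, so
`S_n f - h n = b - b ∘ T^[n] ≤ C` a.e., hence everywhere: the set where it fails is open, and
`DLow` (with `n = 1`) makes every nonempty open set have positive measure. -/
def StmtG3 : Prop :=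
  ∀ (Y : Type) [MetricSpace Y] [CompactSpace Y] [MeasurableSpace Y] [BorelSpace Y]
    (μ : Measure Y) [IsProbabilityMeasure μ] (T : Y → Y) (f : Y → ℝ),
    Continuous T → MeasurePreserving T μ μ → Continuous f → DLow μ T f →
    ∀ h C : ℝ, ∫ y, f y ∂μ ≤ h → (∀ (z : Y) (n : ℕ), h * n - C ≤ birkhoffSum T f n z) →
      ∀ (z : Y) (n : ℕ), |birkhoffSum T f n z - h * n| ≤ C

/-! ## Continuous time, set level (these are the hypotheses the geometry must supply) -/

section Ambient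

variable {E : Type} [MetricSpace E]

/-- `S t z = ∫_0^t τ(Φ_s z) ds` (also for `t < 0`). -/
def fS (Φ : ℝ → E → E) (τ : E → ℝ) (t : ℝ) (z : E) : ℝ := ∫ s in (0 : ℝ)..t, τ (Φ s z)

/-- Continuous-time Bowen ball inside `X`. -/
def fB (X : Set E) (Φ : ℝ → E → E) (t ε : ℝ) (z : E) : Set E :=
  {y | y ∈ X ∧ ∀ s ∈ Icc (0 : ℝ) t, dist (Φ s y) (Φ s z) < ε}

/-- LOCAL PRODUCT STRUCTURE with bounded distortion of the cocycle `σ` (`σ = fS Φ τ`): two close
points `x, y` have a `w` that is forward asymptotic to (a small time shift of) `x` and backward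
asymptotic to (a small time shift of) `y`, stays `δ`-close, and has `δ`-close `σ`-sums.
Geometrically: the geodesic from `y(-∞)` to `x(+∞)`. -/
def LPS (X : Set E) (Φ : ℝ → E → E) (σ : ℝ → E → ℝ) : Prop :=
  ∀ δ > 0, ∃ η > 0, ∀ x ∈ X, ∀ y ∈ X, dist x y < η → ∃ w ∈ X, ∃ r r' : ℝ, |r| ≤ δ ∧ |r'| ≤ δ ∧
    (∀ t, 0 ≤ t → dist (Φ t w) (Φ (t + r) x) ≤ δ ∧ |σ t w - σ t (Φ r x)| ≤ δ) ∧
    (∀ t, t ≤ 0 → dist (Φ t w) (Φ (t + r') y) ≤ δ ∧ |σ t w - σ t (Φ r' y)| ≤ δ) ∧
    Tendsto (fun t => dist (Φ t w) (Φ (t + r) x)) atTop (𝓝 0) ∧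
    Tendsto (fun t => dist (Φ t w) (Φ (t + r') y)) atBot (𝓝 0)

/-- The forward AND the backward orbit of `z` come back near every point of `X` at arbitrarily
large times. -/
def BiTrans (X : Set E) (Φ : ℝ → E → E) (z : E) : Prop :=
  ∀ y ∈ X, ∀ ε > 0, ∀ R : ℝ,
    (∃ t, R ≤ t ∧ dist (Φ t z) y < ε) ∧ (∃ t, t ≤ -R ∧ dist (Φ t z) y < ε)

/-- `σ t - h t` is a continuous coboundary on `X` (for `σ = fS Φ τ`: `τ - h = -X a`). -/
def Cob (X : Set E) (Φ : ℝ → E → E) (σ : ℝ → E → ℝ) (h : ℝ) : Prop :=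
  ∃ a : E → ℝ, ContinuousOn a X ∧ ∀ z ∈ X, ∀ t : ℝ, σ t z - h * t = a z - a (Φ t z)

variable [MeasurableSpace E]

/-- Upper VOLUME LEMMA (one scale). -/
def VolUp (X : Set E) (Φ : ℝ → E → E) (μ : Measure E) (τ : E → ℝ) : Prop :=
  ∃ ε > 0, ∃ C > 0, ∀ z ∈ X, ∀ t, 0 ≤ t → μ.real (fB X Φ t ε z) ≤ C * Real.exp (-fS Φ τ t z)

/-- Lower VOLUME LEMMA (every scale). -/
def VolLow (X : Set E) (Φ : ℝ → E → E) (μ : Measure E) (τ : E → ℝ) : Prop :=
  ∀ ε > 0, ∃ c > 0, ∀ z ∈ X, ∀ t, 0 ≤ t → c * Real.exp (-fS Φ τ t z) ≤ μ.real (fB X Φ t ε z)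

/-- A continuous flow on the compact connected invariant set `X` (nothing is assumed about `Φ`
outside `X`), a probability carried by `X` and invariant under the time-one map, `τ` continuous. -/
structure IsSys (X : Set E) (Φ : ℝ → E → E) (μ : Measure E) (τ : E → ℝ) : Prop where
  cpt : IsCompact X
  conn : IsPreconnected X
  maps : ∀ t, MapsTo (Φ t) X X
  zero : ∀ z ∈ X, Φ 0 z = z
  add : ∀ s t, ∀ z ∈ X, Φ (s + t) z = Φ s (Φ t z)
  cont : ContinuousOn (fun p : ℝ × E => Φ p.1 p.2) (univ ×ˢ X)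
  prob : IsProbabilityMeasure μ
  carried : μ Xᶜ = 0
  inv : ∀ A, MeasurableSet A → μ (X ∩ Φ 1 ⁻¹' A) = μ A
  tcont : ContinuousOn τ X

end Ambient

/-! ## Flows on a compact metric space (type level: `X = univ`, `Φ = φ`) -/

section FlowDefs

variable {Y : Type} [MetricSpace Y]

/-- Uniform transitions. -/
def USpec (φ : Flow ℝ Y) : Prop :=
  ∀ ε > 0, ∃ R : ℝ, ∀ x y : Y, ∃ (z : Y) (t : ℝ), 0 ≤ t ∧ t ≤ R ∧ dist z x < ε ∧ dist (φ t z) y < ε

/-- Flow gluing: the past of `x` and the future of `y` are shadowed by one orbit, with a bounded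
transition time. -/
def FGlue (φ : Flow ℝ Y) : Prop :=
  ∀ ε > 0, ∃ R : ℝ, ∀ x y : Y, ∃ (w : Y) (t : ℝ), 0 ≤ t ∧ t ≤ R ∧
    (∀ s, s ≤ 0 → dist (φ s w) (φ s x) < ε) ∧ ∀ u, 0 ≤ u → dist (φ (t + u) w) (φ u y) < ε

end FlowDefs

/-- **F1** (transitivity from recurrence).  `x ⇝ y` := `∀ ε > 0, ∃ z, ∃ t ≥ 0, dist z x < ε ∧
dist (φ t z) y < ε`.  Closed relation; transitive by `LPS` (glue the backward orbit of `φ t₁ z₁`
with the forward orbit of `z₂`; small time shifts move points uniformly little).  With `η₀` from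
`LPS` at `δ = 1`: if `x` is forward recurrent for `φ 1`, `y` recurrent for `φ (-1)` and
`dist x y < η₀` then `y ⇝ x` (asymptotics).  Recurrent points are a.e.
(`MeasurePreserving.conservative`, `Conservative.ae_frequently_mem_of_mem_nhds`; `φ (-1)` preserves
`μ` as the inverse of `φ 1`, `MeasurePreserving.symm` with `Homeomorph.toMeasurableEquiv`), hence
dense (`μ` open-positive).  So `dist x y < η₀ → y ⇝ x`; `{y | x ⇝ y}` is clopen and nonempty.
Uniform `R`: the open sets `{(x,y) | ∃ z t ∈ [0,R], …}` increase and cover the compact `Y × Y`. -/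
def StmtF1 : Prop :=
  ∀ (Y : Type) [MetricSpace Y] [CompactSpace Y] [PreconnectedSpace Y] [MeasurableSpace Y]
    [BorelSpace Y] (μ : Measure Y) [IsProbabilityMeasure μ] [μ.IsOpenPosMeasure] (φ : Flow ℝ Y)
    (σ : ℝ → Y → ℝ), MeasurePreserving (φ 1) μ μ → LPS univ φ σ → USpec φ

/-- **F2** (a) `USpec + LPS → FGlue`: glue twice.  `δ` small for `ε`, `η = η(δ)`, `δ₁` small for
`η`, `η₁ = η(δ₁)`; `z, t` from `USpec` at `min η₁ (η/3)`; `w₁ = [y forward, φ t z backward]` at
`δ₁`; `φ (-t) w₁` is `η`-close to `x`; `w = [φ (-t) w₁ forward, x backward]` at `δ`.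
(b) `FGlue → DGlue (φ 1)`: `FGlue` at `ε/5` for the pair `(φ n x, y)`, `W = φ (-n) w`; `θ` with
`|s| ≤ θ → dist (φ s p) p < ε/5`; pigeonhole on `⌊t/θ⌋₊ ≤ ⌊R/θ⌋₊`
(`Finset.exists_le_card_fiber_of_mul_le_card_of_maps_to` or a sum over fibres); in one bin
`t₀ = jθ` the `W`'s of distinct pairs are `≥ 3ε/5` apart at an integer time `< n` or `≥ ε/5` apart
at time `n + t₀ + i`, hence `≥ ε'` apart at the integer time `n + ⌊t₀⌋ + i < n + m + k`, where
`dist p q < ε' → ∀ s ∈ [0,1], dist (φ s p) (φ s q) < ε/5`, `k = ⌈R⌉₊ + 1`.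
(`Flow.map_add`; `(φ 1)^[n] = φ n` by induction.) -/
def StmtF2 : Prop :=
  ∀ (Y : Type) [MetricSpace Y] [CompactSpace Y] (φ : Flow ℝ Y),
    (∀ σ : ℝ → Y → ℝ, USpec φ → LPS univ φ σ → FGlue φ) ∧ (FGlue φ → DGlue (φ 1))

/-- **F3** (Baire).  For `y` in a countable dense set, `j, R ∈ ℕ`, the sets
`{z | ∃ t ≥ R, dist (φ t z) y < 1/(j+1)}` and `{z | ∃ t ≤ -R, …}` are open and dense (apply `USpec`
to `(φ R x, y)` resp. `(y, φ (-R) x)` with a tolerance small for the continuity of `φ (∓R)`);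
`dense_iInter_of_isOpen`/`residual`.  Consequence: a continuous invariant function is constant. -/
def StmtF3 : Prop :=
  ∀ (Y : Type) [MetricSpace Y] [CompactSpace Y] (φ : Flow ℝ Y), USpec φ →
    Dense {z | BiTrans univ φ z} ∧
    ∀ g : Y → ℝ, Continuous g → (∀ t z, g (φ t z) = g z) → ∀ x y, g x = g y

/-- **F4** (bounded cocycle = continuous coboundary; Gottschalk–Hedlund + `LPS`, no closing lemma).
`g t z = σ t z - h t`, `u z = ⨆ t, g t z` (lsc), `l z = ⨅ t, g t z` (usc),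
`g s z = u z - u (φ s z)`, same for `l`; `u - l` is invariant and lsc, so it attains its sup `M` at
every point with a dense orbit, so `u ≤ l + M` is usc at such points.  Hence for a forward
transitive `z` and `η > 0` there is `t ≥ 0` with `g t z > u z - η` (same backward).  For `BiTrans`
`x, y` with `dist x y < η(δ)`, the `w` of `LPS` is `BiTrans`, `|u w - u (φ r x)| ≤ δ`,
`|u w - u (φ r' y)| ≤ δ`, and `|u (φ r x) - u x| = |g r x|` is uniformly small.  So `u` is
uniformly continuous on the dense invariant set of `BiTrans` points; extend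
(`Dense.extend`, `Dense.uniformContinuous_extend`, `Dense.extend_of_ind`) and close the identity. -/
def StmtF4 : Prop :=
  ∀ (Y : Type) [MetricSpace Y] [CompactSpace Y] (φ : Flow ℝ Y) (σ : ℝ → Y → ℝ),
    Continuous (fun p : ℝ × Y => σ p.1 p.2) → (∀ s t z, σ (s + t) z = σ t z + σ s (φ t z)) →
    LPS univ φ σ → Dense {z | BiTrans univ φ z} →
    ∀ h C : ℝ, (∀ t z, |σ t z - h * t| ≤ C) → Cob univ φ σ h

/-- **F5** (continuous time to discrete time), `f = fS φ τ 1`.  `fS` is jointly continuous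
(`intervalIntegral.continuous_parametric_primitive_of_continuous`) and a cocycle
(`integral_add_adjacent_intervals`, `integral_comp_add_right`); `birkhoffSum (φ 1) f n = fS n`;
`VolUp → DUp` (`bB n ε' z ⊆ fB n ε z` for `n ≥ 1`, `ε'` from uniform continuity of `φ` on
`[0,1] × Y`; for `n = 0` take `C ≥ 1`), `VolLow → DLow` (`fB n ε z ⊆ bB n ε z`), `VolLow` makes `μ`
open-positive (`t = 0`); a bound at integer times extends to all real times (`t = n + s`,
`s ∈ [0,1]`, and `fS (-t) z = -fS t (φ (-t) z)`). -/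
def StmtF5 : Prop :=
  ∀ (Y : Type) [MetricSpace Y] [CompactSpace Y] [MeasurableSpace Y] [BorelSpace Y]
    (μ : Measure Y) [IsProbabilityMeasure μ] (φ : Flow ℝ Y) (τ : Y → ℝ), Continuous τ →
    Continuous (fun p : ℝ × Y => fS φ τ p.1 p.2) ∧
    (∀ s t z, fS φ τ (s + t) z = fS φ τ t z + fS φ τ s (φ t z)) ∧
    (∀ (n : ℕ) z, birkhoffSum (φ 1) (fS φ τ 1) n z = fS φ τ n z) ∧
    (VolUp univ φ μ τ → DUp μ (φ 1) (fS φ τ 1)) ∧
    (VolLow univ φ μ τ → DLow μ (φ 1) (fS φ τ 1) ∧ μ.IsOpenPosMeasure) ∧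
    ∀ h C : ℝ, (∀ (z : Y) (n : ℕ), |fS φ τ n z - h * n| ≤ C) →
      ∃ C' : ℝ, ∀ t z, |fS φ τ t z - h * t| ≤ C'

/-- **Tr** (transfer of `ksEntropy` to the subtype).  `T` is arbitrary off `X` (maybe not
measurable).  `ν = μ.comap Subtype.val`; `μ A = ν (val ⁻¹' A)` for EVERY `A` (`measure_inter_conull`,
`MeasurableEmbedding.comap_apply`).  For a partition `P` of `E` mod `μ`, `P' = P.image (val ⁻¹' ·)`
is a partition of `X` mod `ν` with `iteratedJoin T' P' k = (iteratedJoin T P k).image (val ⁻¹' ·)`,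
and the image only merges sets with empty trace, so the entropies agree; conversely
`P = P'.image (val '' ·)` has `P.image (val ⁻¹' ·) = P'`.  So the two sets under `sSup` coincide. -/
def StmtTr : Prop :=
  ∀ (E : Type) [MeasurableSpace E] (X : Set E) (μ : Measure E) (T : E → E) (hT : MapsTo T X X),
    MeasurableSet X → μ Xᶜ = 0 →
      ksEntropy μ T = ksEntropy (μ.comap (Subtype.val : X → E)) (hT.restrict T X X)

/-- **MainT**: the whole layer at type level (assembly of K1, K2, C, T3, G1-G3, F1-F5). -/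
def StmtMainT : Prop :=
  ∀ (Y : Type) [MetricSpace Y] [CompactSpace Y] [PreconnectedSpace Y] [MeasurableSpace Y]
    [BorelSpace Y] (μ : Measure Y) [IsProbabilityMeasure μ] (φ : Flow ℝ Y) (τ : Y → ℝ),
    MeasurePreserving (φ 1) μ μ → Continuous τ → VolUp univ φ μ τ → VolLow univ φ μ τ →
    LPS univ φ (fS φ τ) →
      ksEntropy μ (φ 1) = ∫ y, fS φ τ 1 y ∂μ ∧
      ((ksEntropy μ (φ 1) : EReal) = Dynamics.coverEntropy (φ 1) univ ↔
        ∃ h, Cob univ φ (fS φ τ) h) ∧
      ((∀ t z, τ (φ t z) = τ z) → ∃ h, Cob univ φ (fS φ τ) h) ∧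
      Dense {z | BiTrans univ φ z}

/-- **Main**: the whole layer in ambient form (MainT on the subtype `X`, Tr,
`Dynamics.coverEntropy_restrict`). -/
def StmtMain : Prop :=
  ∀ (E : Type) [MetricSpace E] [MeasurableSpace E] [BorelSpace E] (X : Set E) (Φ : ℝ → E → E)
    (μ : Measure E) (τ : E → ℝ), IsSys X Φ μ τ → VolUp X Φ μ τ → VolLow X Φ μ τ →
    LPS X Φ (fS Φ τ) →
      ((ksEntropy μ (Φ 1) : EReal) = Dynamics.coverEntropy (Φ 1) X ↔ ∃ h, Cob X Φ (fS Φ τ) h) ∧
      ((∀ t, ∀ z ∈ X, τ (Φ t z) = τ z) → ∃ h, Cob X Φ (fS Φ τ) h) ∧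
      X ⊆ closure {z | z ∈ X ∧ BiTrans X Φ z}

end Crest.Agent.N221.En
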