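import Crest.Agent.N221.En.Defs

/-! # Row 221, abstract ergodic layer: assembly (`MainT`, `Main`) (helper33) -/

set_option autoImplicit false

open MeasureTheory Set Filter Topology
open Crest.GeometryTopology.Submanifold

noncomputable section

namespace Crest.Agent.N221.En

theorem sMainT (hK1 : StmtK1) (hK2 : StmtK2) (hC : StmtC) (hT3 : StmtT3) (hG1 : StmtG1)
    (hG2 : StmtG2) (hG3 : StmtG3) (hF1 : StmtF1) (hF2 : StmtF2) (hF3 : StmtF3) (hF4 : StmtF4)
    (hF5 : StmtF5) : StmtMainT := by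
  intro Y _ _ _ _ _ μ _ φ τ hinv hτ hUp hLow hLPS
  obtain ⟨hSc, hSadd, hSb, hDU, hDL, hext⟩ := hF5 Y μ φ τ hτ
  have hDUp := hDU hUp
  obtain ⟨hDLow, hop⟩ := hDL hLow
  have hTc : Continuous (φ 1) := φ.continuous_toFun 1
  have hfc : Continuous (fS φ τ 1) := hSc.comp (continuous_const.prodMk continuous_id)
  have hUS : USpec φ := hF1 Y μ φ (fS φ τ) hinv hLPS
  obtain ⟨hdense, hconst⟩ := hF3 Y φ hUS
  have hks : ksEntropy μ (φ 1) = ∫ y, fS φ τ 1 y ∂μ := by
    obtain ⟨P, hP, hle⟩ := hK2 Y μ (φ 1) (fS φ τ 1) hTc hinv hfc hDUp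
    have hup := hK1 Y μ (φ 1) (fS φ τ 1) hTc hinv hfc hDLow
    have hgr : IsGreatest {h : ℝ | ∃ P : Finset (Set Y), IsPartitionMod μ P ∧
        h = ⨅ k : ℕ, partitionEntropy μ (iteratedJoin (φ 1) P (k + 1)) / (k + 1)}
        (∫ y, fS φ τ 1 y ∂μ) := by
      refine ⟨⟨P, hP, le_antisymm hle (hup P hP)⟩, ?_⟩
      rintro h ⟨Q, hQ, rfl⟩
      exact hup Q hQ
    exact hgr.csSup_eq
  refine ⟨hks, ⟨fun heq => ?_, ?_⟩, ?_, hdense⟩
  · refine ⟨∫ y, fS φ τ 1 y ∂μ, ?_⟩
    have hsub : SubExp (φ 1) (∫ y, fS φ τ 1 y ∂μ) := by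
      rw [← hC Y (φ 1) hTc, ← heq, hks]
    have hglue : DGlue (φ 1) := (hF2 Y φ).2 ((hF2 Y φ).1 _ hUS hLPS)
    have hex := hG1 Y μ (φ 1) (fS φ τ 1) hTc hfc hDUp hDLow hglue _ hsub
    obtain ⟨C, hC1⟩ := hG2 Y μ (φ 1) (fS φ τ 1) hTc hinv hfc hDUp hDLow _ hex le_rfl
    have hC2 := hG3 Y μ (φ 1) (fS φ τ 1) hTc hinv hfc hDLow _ C le_rfl hC1
    obtain ⟨C', hC'⟩ := hext (∫ y, fS φ τ 1 y ∂μ) C (fun z n => by rw [← hSb]; exact hC2 z n)
    exact hF4 Y φ (fS φ τ) hSc hSadd hLPS hdense _ C' hC'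
  · rintro ⟨h, a, ha, hcob⟩
    have hac : Continuous a := continuousOn_univ.1 ha
    obtain ⟨B, hB⟩ := isCompact_univ.exists_bound_of_continuousOn ha
    have hbd : ∀ (z : Y) (n : ℕ), |birkhoffSum (φ 1) (fS φ τ 1) n z - h * n| ≤ 2 * B := by
      intro z n
      rw [hSb, hcob z (mem_univ _)]
      have h1 := hB z (mem_univ _)
      have h2 := hB (φ n z) (mem_univ _)
      rw [Real.norm_eq_abs] at h1 h2
      calc |a z - a (φ n z)| ≤ |a z| + |a (φ n z)| := abs_sub _ _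
        _ ≤ 2 * B := by linarith
    obtain ⟨h1, h2⟩ := hT3 Y μ (φ 1) (fS φ τ 1) hTc hinv hfc hDUp hDLow h (2 * B) hbd
    rw [hks, h1, h2]
  · intro hti
    have hne : Nonempty Y := nonempty_of_isProbabilityMeasure μ
    obtain ⟨y0⟩ := hne
    refine ⟨τ y0, fun _ => 0, continuousOn_const, fun z _ t => ?_⟩
    have : fS φ τ t z = ∫ _ in (0 : ℝ)..t, τ y0 := by
      unfold fS
      congr 1
      funext s
      exact hconst τ hτ hti _ _
    rw [this, intervalIntegral.integral_const]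
    simp [mul_comm]

namespace MainAux

variable {E : Type} [MetricSpace E] [MeasurableSpace E] {X : Set E} {Φ : ℝ → E → E}
  {μ : Measure E} {τ : E → ℝ}

/-- The flow restricted to the subtype. -/
def flow (h : IsSys X Φ μ τ) : Flow ℝ X where
  toFun t z := ⟨Φ t z, h.maps t z.2⟩
  cont' := by
    refine Continuous.subtype_mk ?_ _
    have : Continuous (fun p : ℝ × X => ((p.1, (p.2 : E)) : ℝ × E)) := by fun_prop
    exact h.cont.comp_continuous this (fun p => ⟨mem_univ _, p.2.2⟩)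
  map_add' s t z := Subtype.ext (h.add s t z z.2)
  map_zero' z := Subtype.ext (h.zero z z.2)

@[simp] theorem flow_val (h : IsSys X Φ μ τ) (t : ℝ) (z : X) : ((flow h t z : X) : E) = Φ t z := rfl

theorem fS_eq (h : IsSys X Φ μ τ) (t : ℝ) (z : X) :
    fS (flow h) (fun y : X => τ y) t z = fS Φ τ t z := rfl

theorem image_fB (h : IsSys X Φ μ τ) (t ε : ℝ) (z : X) :
    Subtype.val '' fB univ (flow h) t ε z = fB X Φ t ε z := by
  ext y
  constructor
  · rintro ⟨y, ⟨-, hy⟩, rfl⟩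
    exact ⟨y.2, hy⟩
  · rintro ⟨hy, hd⟩
    exact ⟨⟨y, hy⟩, ⟨mem_univ _, hd⟩, rfl⟩

end MainAux

open MainAux in
theorem sMain (hMT : StmtMainT) (hTr : StmtTr) : StmtMain := by
  intro E _ _ _ X Φ μ τ h hUp hLow hLPS
  have : CompactSpace X := isCompact_iff_compactSpace.1 h.cpt
  have : PreconnectedSpace X := isPreconnected_iff_preconnectedSpace.1 h.conn
  have := h.prob
  have hXm : MeasurableSet X := h.cpt.isClosed.measurableSet
  have hemb : MeasurableEmbedding (Subtype.val : X → E) := MeasurableEmbedding.subtype_coe hXm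
  set ν : Measure X := μ.comap (Subtype.val : X → E) with hν
  have hνa : ∀ s : Set X, ν s = μ (Subtype.val '' s) := fun s => hemb.comap_apply μ s
  have : IsProbabilityMeasure ν := ⟨by
    rw [hνa, image_univ, Subtype.range_coe, ← univ_inter X, measure_inter_conull h.carried,
      measure_univ]⟩
  have hinv : MeasurePreserving (flow h 1) ν ν := by
    have hm : Measurable (flow h 1) := ((flow h).continuous_toFun 1).measurable
    refine ⟨hm, Measure.ext fun A hA => ?_⟩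
    rw [Measure.map_apply hm hA, hνa, hνa, ← h.inv _ (hemb.measurableSet_image.2 hA)]
    congr 1
    ext y
    constructor
    · rintro ⟨y, hy, rfl⟩
      exact ⟨y.2, ⟨_, hy, rfl⟩⟩
    · rintro ⟨hy, ⟨w, hw, hwe⟩⟩
      refine ⟨⟨y, hy⟩, ?_, rfl⟩
      have : flow h 1 ⟨y, hy⟩ = w := Subtype.ext hwe.symm
      simpa [this] using hw
  have hτ : Continuous (fun y : X => τ y) := continuousOn_iff_continuous_domRestrict.1 h.tcont
  have hreal : ∀ t ε (z : X), ν.real (fB univ (flow h) t ε z) = μ.real (fB X Φ t ε z) := by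
    intro t ε z
    rw [Measure.real, Measure.real, hνa, image_fB]
  have hUp' : VolUp univ (flow h) ν (fun y : X => τ y) := by
    obtain ⟨ε, hε, C, hC, hb⟩ := hUp
    exact ⟨ε, hε, C, hC, fun z _ t ht => by rw [hreal, fS_eq]; exact hb z z.2 t ht⟩
  have hLow' : VolLow univ (flow h) ν (fun y : X => τ y) := by
    intro ε hε
    obtain ⟨c, hc, hb⟩ := hLow ε hε
    exact ⟨c, hc, fun z _ t ht => by rw [hreal, fS_eq]; exact hb z z.2 t ht⟩
  have hLPS' : LPS univ (flow h) (fS (flow h) (fun y : X => τ y)) := by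
    intro δ hδ
    obtain ⟨η, hη, hb⟩ := hLPS δ hδ
    refine ⟨η, hη, fun x _ y _ hxy => ?_⟩
    obtain ⟨w, hw, r, r', hr, hr', h1, h2, h3, h4⟩ := hb x x.2 y y.2 hxy
    exact ⟨⟨w, hw⟩, mem_univ _, r, r', hr, hr', h1, h2, h3, h4⟩
  obtain ⟨-, hiff, hti, hdense⟩ := hMT X ν (flow h) (fun y : X => τ y) hinv hτ hUp' hLow' hLPS'
  have hcob : ∀ c : ℝ, Cob univ (flow h) (fS (flow h) (fun y : X => τ y)) c ↔
      Cob X Φ (fS Φ τ) c := by
    intro c
    constructor
    · rintro ⟨a, ha, hc⟩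
      classical
      refine ⟨fun z => if hz : z ∈ X then a ⟨z, hz⟩ else 0, ?_, fun z hz t => ?_⟩
      · rw [continuousOn_iff_continuous_domRestrict]
        have : X.domRestrict (fun z => if hz : z ∈ X then a ⟨z, hz⟩ else 0) = a := by
          funext z
          simp [z.2]
        rw [this]
        exact continuousOn_univ.1 ha
      · have := hc ⟨z, hz⟩ (mem_univ _) t
        simp only [dif_pos hz, dif_pos (h.maps t hz)]
        exact this
    · rintro ⟨a, ha, hc⟩
      exact ⟨fun z => a z, (continuousOn_iff_continuous_domRestrict.1 ha).continuousOn,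
        fun z _ t => hc z z.2 t⟩
  have hT : (h.maps 1).restrict (Φ 1) X X = flow h 1 := rfl
  refine ⟨?_, fun hinvτ => ?_, fun z hz => ?_⟩
  · rw [hTr E X μ (Φ 1) (h.maps 1) hXm h.carried, ← Dynamics.coverEntropy_restrict (h.maps 1), hT,
      hiff]
    exact exists_congr hcob
  · obtain ⟨c, hc⟩ := hti (fun t z => hinvτ t z z.2)
    exact ⟨c, (hcob c).1 hc⟩
  · have h1 : (⟨z, hz⟩ : X) ∈ closure {z : X | BiTrans univ (flow h) z} := hdense _
    have h2 := mem_closure_image continuous_subtype_val.continuousAt h1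
    refine closure_mono ?_ h2
    rintro _ ⟨w, hw, rfl⟩
    exact ⟨w.2, fun y hy ε hε R => hw ⟨y, hy⟩ (mem_univ _) ε hε R⟩

end Crest.Agent.N221.En
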